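import Vale.Agent.P368M.Supp

/-! Module SUPP2: operators supported on a set of qubits and products of reflections. -/

namespace P368M

open scoped Matrix.Norms.L2Operator

variable {V : Type} [Fintype V] [DecidableEq V]

private theorem suppB_apply_eq_zero {T : Finset V} {w : Op V} (h : SuppIn T w) {x y : V → Bool}
    (hxy : ∃ i, i ∉ T ∧ x i ≠ y i) : w x y = 0 := by
  obtain ⟨i0, hi0, hne⟩ := hxy
  set W : V → Matrix Bool Bool ℂ := fun i =>
    if i ∈ T then 1 else Matrix.of fun a b => if a = y i ∧ b = y i then 1 else 0 with hW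
  have h1 := h W (fun i hi => by simp only [hW]; rw [if_pos hi])
  have h2 := congrFun (congrFun h1 x) y
  rw [Matrix.mul_apply, Matrix.mul_apply] at h2
  have h3 : ∀ z, tens W z y = if z = y then 1 else 0 := by
    intro z
    unfold tens
    by_cases hz : z = y
    · rw [if_pos hz, hz]
      apply Finset.prod_eq_one
      intro i _
      simp only [hW]
      split_ifs <;> simp
    · rw [if_neg hz]
      obtain ⟨i, hi⟩ := Function.ne_iff.1 hz
      apply Finset.prod_eq_zero (Finset.mem_univ i)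
      simp only [hW]
      split_ifs with h4
      · exact Matrix.one_apply_ne hi
      · simp [hi]
  have h4 : ∀ z, tens W x z = 0 := by
    intro z
    unfold tens
    apply Finset.prod_eq_zero (Finset.mem_univ i0)
    simp only [hW]
    rw [if_neg hi0]
    simp [hne]
  simp only [h3, h4, mul_ite, mul_one, mul_zero, zero_mul, Finset.sum_const_zero,
    Finset.sum_ite_eq', Finset.mem_univ, if_true] at h2
  exact h2

theorem SuppIn.commute_far {T : Finset V} {w : Op V} (h : SuppIn T w)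
    (𝒮 : Finset (Finset V)) (h𝒮 : ∀ S ∈ 𝒮, Disjoint S T) : sgn 𝒮 * w = w * sgn 𝒮 := by
  ext x y
  unfold sgn
  rw [Matrix.diagonal_mul, Matrix.mul_diagonal]
  by_cases hxy : ∃ i, i ∉ T ∧ x i ≠ y i
  · rw [suppB_apply_eq_zero h hxy, mul_zero, zero_mul]
  · push Not at hxy
    rw [mul_comm]
    congr 1
    refine Finset.prod_congr rfl fun S hS => ?_
    have h1 : (∀ i ∈ S, x i = true) ↔ ∀ i ∈ S, y i = true := by
      refine forall₂_congr fun i hi => ?_
      rw [hxy i (Finset.disjoint_left.1 (h𝒮 S hS) hi)]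
    simp only [h1]

/-- only the gates that touch `T` survive, there are at most `T.card` of them -/
theorem SuppIn.sgn_conj {T : Finset V} {w : Op V} (h : SuppIn T w)
    (𝒮 : Finset (Finset V)) (h𝒮 : (𝒮 : Set (Finset V)).PairwiseDisjoint id) :
    ∃ 𝒩 : Finset (Finset V), 𝒩.card ≤ T.card ∧
      sgn 𝒮 * w * sgn 𝒮 = sgn 𝒩 * w * sgn 𝒩 := by
  classical
  refine ⟨𝒮.filter (fun S => ¬ Disjoint S T), ?_, ?_⟩
  · have h1 : ∀ S ∈ 𝒮.filter (fun S => ¬ Disjoint S T), 1 ≤ (S ∩ T).card := by
      intro S hS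
      obtain ⟨i, h1, h2⟩ := Finset.not_disjoint_iff.1 (Finset.mem_filter.1 hS).2
      exact Finset.card_pos.2 ⟨i, Finset.mem_inter.2 ⟨h1, h2⟩⟩
    have h2 : ∀ S ∈ 𝒮.filter (fun S => ¬ Disjoint S T), ∀ S' ∈ 𝒮.filter
        (fun S => ¬ Disjoint S T), S ≠ S' → Disjoint (S ∩ T) (S' ∩ T) := by
      intro S hS S' hS' hne
      have h3 : Disjoint S S' := h𝒮 (Finset.mem_filter.1 hS).1 (Finset.mem_filter.1 hS').1 hne
      exact h3.mono Finset.inter_subset_left Finset.inter_subset_left
    calc (𝒮.filter (fun S => ¬ Disjoint S T)).card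
        = ∑ S ∈ 𝒮.filter (fun S => ¬ Disjoint S T), 1 := by simp
      _ ≤ ∑ S ∈ 𝒮.filter (fun S => ¬ Disjoint S T), (S ∩ T).card := Finset.sum_le_sum h1
      _ = ((𝒮.filter (fun S => ¬ Disjoint S T)).biUnion fun S => S ∩ T).card :=
          (Finset.card_biUnion h2).symm
      _ ≤ T.card := Finset.card_le_card
          (Finset.biUnion_subset.2 fun S _ => Finset.inter_subset_right)
  · set 𝒩 := 𝒮.filter (fun S => ¬ Disjoint S T)
    set ℱ := 𝒮.filter (fun S => Disjoint S T)
    have e1 : sgn 𝒮 = sgn ℱ * sgn 𝒩 := by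
      rw [← sgn_union, Finset.filter_union_filter_not_eq]
      exact Finset.disjoint_filter_filter_not _ _ _
    have e2 : sgn ℱ * sgn 𝒩 = sgn 𝒩 * sgn ℱ := by
      unfold sgn
      rw [Matrix.diagonal_mul_diagonal, Matrix.diagonal_mul_diagonal]
      congr 1
      funext x
      exact mul_comm _ _
    have e3 : sgn ℱ * w = w * sgn ℱ :=
      h.commute_far ℱ fun S hS => (Finset.mem_filter.1 hS).2
    calc sgn 𝒮 * w * sgn 𝒮 = sgn 𝒩 * (sgn ℱ * w) * (sgn ℱ * sgn 𝒩) := by
          rw [e1]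
          nth_rewrite 1 [e2]
          simp only [mul_assoc]
      _ = sgn 𝒩 * w * (sgn ℱ * sgn ℱ) * sgn 𝒩 := by
          rw [e3]
          simp only [mul_assoc]
      _ = sgn 𝒩 * w * sgn 𝒩 := by
          rw [sgn_mul_self, mul_one]

end P368M
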