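import Vale.Agent.P368M.Near
import Vale.Agent.P368M.SuppB

/-! Module STEP: see `Near.lean` for the proof. -/

namespace P368M

open scoped Matrix.Norms.L2Operator

variable {V : Type} [Fintype V] [DecidableEq V]

/-- the conjugation by one more layer as a product of three conjugations -/
theorem step_conj {t : ℕ} {U : Op V} (hU : Circ t U) {𝒮 : Finset (Finset V)}
    (h𝒮 : (𝒮 : Set (Finset V)).PairwiseDisjoint id) {W : V → Matrix Bool Bool ℂ} (hW : Uni W)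
    {T : Finset V} {w : Op V} (hw : SuppIn T w) :
    ∃ 𝒩 : Finset (Finset V), 𝒩.card ≤ T.card ∧
      U * sgn 𝒮 * tens W * w * star (U * sgn 𝒮 * tens W) =
        (U * sgn 𝒩 * star U) * ((U * (tens W * w * star (tens W)) * star U) *
          (U * sgn 𝒩 * star U)) := by
  obtain ⟨𝒩, h1, h2⟩ := (hw.conj hW).sgn_conj 𝒮 h𝒮
  refine ⟨𝒩, h1, ?_⟩
  have hUU : ∀ X : Op V, star U * (U * X) = X := fun X => by
    rw [← mul_assoc, hU.star_mul_self, one_mul]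
  have e1 : U * sgn 𝒮 * tens W * w * star (U * sgn 𝒮 * tens W) =
      U * (sgn 𝒮 * (tens W * w * star (tens W)) * sgn 𝒮) * star U := by
    rw [star_mul, star_mul, star_sgn]
    simp only [mul_assoc]
  rw [e1, h2]
  simp only [mul_assoc, hUU]

theorem step_numerics {m t : ℕ} {B L Λ : ℝ} (hL : 1 ≤ L) (hΛ : 1 ≤ Λ) (hB : 1 ≤ B) {x m₁ m₂ : ℕ}
    (hx : 20 * Λ ^ 2 * L * (m + t + B) ≤ x) (h1 : (m₁ : ℝ) ≤ Λ * (m + 3 * (t + B)) + 1)
    (h2 : (m₂ : ℝ) ≤ L * (m₁ + t + 3 * (t + B)) + 1) : Λ * (m₂ + 3 * (t + B)) ≤ x := by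
  have hm : (0 : ℝ) ≤ m := Nat.cast_nonneg m
  have ht : (0 : ℝ) ≤ t := Nat.cast_nonneg t
  set Z : ℝ := m + t + B with hZ
  have hZ1 : 1 ≤ Z := by linarith
  have a1 : 1 ≤ Λ * Z := one_le_mul_of_one_le_of_one_le hΛ hZ1
  have a2 : Λ * (m + 3 * (t + B)) ≤ 3 * (Λ * Z) := by
    have : m + 3 * (t + B) ≤ 3 * Z := by linarith
    calc Λ * (m + 3 * (t + B)) ≤ Λ * (3 * Z) := mul_le_mul_of_nonneg_left this (by linarith)
      _ = 3 * (Λ * Z) := by ring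
  have a3 : (m₁ : ℝ) ≤ 4 * (Λ * Z) := by linarith
  have a4 : (m₁ : ℝ) + t + 3 * (t + B) ≤ 8 * (Λ * Z) := by
    have : (t : ℝ) + 3 * (t + B) ≤ 4 * Z := by linarith
    have h5 : Z ≤ Λ * Z := le_mul_of_one_le_left (by linarith) hΛ
    linarith
  have a5 : L * (m₁ + t + 3 * (t + B)) ≤ 8 * (L * (Λ * Z)) := by
    calc L * (m₁ + t + 3 * (t + B)) ≤ L * (8 * (Λ * Z)) :=
          mul_le_mul_of_nonneg_left a4 (by linarith)
      _ = 8 * (L * (Λ * Z)) := by ring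
  have a6 : 1 ≤ L * (Λ * Z) := one_le_mul_of_one_le_of_one_le hL a1
  have a7 : (m₂ : ℝ) + 3 * (t + B) ≤ 12 * (L * (Λ * Z)) := by
    have h5 : Z ≤ Λ * Z := le_mul_of_one_le_left (by linarith) hΛ
    have h6 : Λ * Z ≤ L * (Λ * Z) := le_mul_of_one_le_left (by linarith) hL
    have : 3 * (t + B) ≤ 3 * Z := by linarith
    linarith
  have a8 : Λ * (m₂ + 3 * (t + B)) ≤ 12 * (Λ ^ 2 * L * Z) := by
    calc Λ * (m₂ + 3 * (t + B)) ≤ Λ * (12 * (L * (Λ * Z))) :=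
          mul_le_mul_of_nonneg_left a7 (by linarith)
      _ = 12 * (Λ ^ 2 * L * Z) := by ring
  have a9 : 0 ≤ Λ ^ 2 * L * Z := by positivity
  have a10 : 20 * Λ ^ 2 * L * Z = 20 * (Λ ^ 2 * L * Z) := by ring
  linarith

theorem step_exp {t : ℕ} {B : ℝ} (hB : 1 ≤ B) {c : ℕ} (hc : c ≤ t) :
    3 ^ c * Real.exp (-(3 * (t + B))) + (Real.exp (-(3 * (t + B))) +
      3 ^ c * Real.exp (-(3 * (t + B)))) ≤ Real.exp (-B) := by
  have ht : (0 : ℝ) ≤ t := Nat.cast_nonneg t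
  have h3 : (3 : ℝ) ≤ Real.exp 2 := by
    have := Real.add_one_le_exp (2 : ℝ)
    linarith
  have h1 : (3 : ℝ) ^ c ≤ Real.exp (2 * t) := by
    calc (3 : ℝ) ^ c ≤ 3 ^ t := pow_le_pow_right₀ (by norm_num) hc
      _ ≤ (Real.exp 2) ^ t := pow_le_pow_left₀ (by norm_num) h3 t
      _ = Real.exp (2 * t) := by rw [← Real.exp_nat_mul]; ring_nf
  have h2 : (1 : ℝ) ≤ 3 ^ c := one_le_pow₀ (by norm_num)
  have h4 : (3 : ℝ) ≤ Real.exp (2 * B) := h3.trans (Real.exp_le_exp.2 (by linarith))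
  have hpos : 0 < Real.exp (-(3 * ((t : ℝ) + B))) := Real.exp_pos _
  calc 3 ^ c * Real.exp (-(3 * (t + B))) + (Real.exp (-(3 * (t + B))) +
        3 ^ c * Real.exp (-(3 * (t + B))))
      ≤ 3 * 3 ^ c * Real.exp (-(3 * (t + B))) := by nlinarith
    _ ≤ Real.exp (2 * B) * Real.exp (2 * t) * Real.exp (-(3 * (t + B))) := by
        gcongr
    _ = Real.exp (2 * B + 2 * t + -(3 * (t + B))) := by
        rw [← Real.exp_add, ← Real.exp_add]
    _ ≤ Real.exp (-B) := Real.exp_le_exp.2 (by linarith)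

theorem spread_step {t : ℕ} {L Λ : ℝ} (hL : 1 ≤ L) (hΛ : 1 ≤ Λ) (hS : Spread V t L)
    (hT : TailM V t Λ) : Spread V (t + 1) (20 * Λ ^ 2 * L) := by
  intro U' hU' S T w hw hw1 m x B hB hx
  cases hU' with
  | succ t U 𝒮 W hU h𝒮 hW =>
    obtain ⟨𝒩, hcard, heq⟩ := step_conj hU h𝒮 hW hw
    rw [heq]
    set b : ℝ := 3 * (T.card + B) with hb
    have hTc : (0 : ℝ) ≤ T.card := Nat.cast_nonneg _
    have hb1 : 1 ≤ b := by rw [hb]; linarith
    set m₁ : ℕ := ⌈Λ * (m + b)⌉₊ with hm₁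
    set m₂ : ℕ := ⌈L * (m₁ + T.card + b)⌉₊ with hm₂
    have hm : (0 : ℝ) ≤ m := Nat.cast_nonneg m
    have hm1' : (0 : ℝ) ≤ m₁ := Nat.cast_nonneg m₁
    have c1 : (m₁ : ℝ) ≤ Λ * (m + b) + 1 :=
      (Nat.ceil_lt_add_one (mul_nonneg (by linarith) (by linarith))).le
    have c2 : (m₂ : ℝ) ≤ L * (m₁ + T.card + b) + 1 :=
      (Nat.ceil_lt_add_one (mul_nonneg (by linarith) (by linarith))).le
    have d1 : Λ * (m + b) ≤ ((m₁ + 1 : ℕ) : ℝ) := by
      push_cast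
      have := Nat.le_ceil (Λ * (m + b))
      rw [← hm₁] at this
      linarith
    have d2 : L * (m₁ + T.card + b) ≤ ((m₂ + 1 : ℕ) : ℝ) := by
      push_cast
      have := Nat.le_ceil (L * (m₁ + T.card + b))
      rw [← hm₂] at this
      linarith
    have d3 : Λ * (m₂ + b) ≤ (x : ℝ) := step_numerics hL hΛ hB hx c1 c2
    have hw1' : ‖tens W * w * star (tens W)‖ ≤ 1 :=
      ((Circ.zero W hW).norm_conj_le w).trans hw1
    have hA1 : ‖U * sgn 𝒩 * star U‖ ≤ 1 := (hU.norm_conj_le _).trans (norm_sgn_le _)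
    have hA2 : ‖U * (tens W * w * star (tens W)) * star U‖ ≤ 1 :=
      (hU.norm_conj_le _).trans hw1'
    have hA21 : ‖(U * (tens W * w * star (tens W)) * star U) * (U * sgn 𝒩 * star U)‖ ≤ 1 :=
      (norm_mul_le _ _).trans (mul_le_one₀ hA2 (norm_nonneg _) hA1)
    refine (compose_cut S x m₂ m _ _ hA1 hA21).trans ?_
    have e1 := norm_sgn_cut hT hU 𝒩 S m₂ x b hb1 d3
    have e2 := compose_cut S (m₂ + 1) m₁ m _ _ hA2 hA1
    have e3 := hS U hU S T _ (hw.conj hW) hw1' m₁ (m₂ + 1) b hb1 d2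
    have e4 := norm_sgn_cut hT hU 𝒩 S m (m₁ + 1) b hb1 d1
    have e5 := step_exp hB hcard
    rw [← hb] at e5
    linarith

end P368M
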