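import Vale.Agent.P368M.Iter
import Vale.Agent.P368M.Step

/-! Module ASYM: the spreading constant is `N^o(1)` for every constant depth.

Induction on `t`.  `spread_next` is `tail_of_spread` + `tailM_of_tail` + `spread_step`.
For `η > 0` take `K ≥ 4/η`, `η' = η/(2(6K+6))`, `L = C₁ N^η'` from the induction hypothesis,
`lam V ≤ C₂ N^η'` (`Real.log_le_rpow_div` or similar), so `12 * dd V L ≤ C₃ N^(6η')`
(`C₃ ≥ 1`), `M = 2 (C₃ N^(6η'))^K N^(1/(K+1))`, and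
`20 (2 M lam)² L ≤ C N^(12Kη'+3η'+2/(K+1)) ≤ C N^η` for `η'` small (choose `η'` accordingly). -/

namespace P368M

open scoped Matrix.Norms.L2Operator

theorem Spread.mono {V : Type} [Fintype V] [DecidableEq V] {t : ℕ} {L L' : ℝ}
    (h : Spread V t L) (hL : L ≤ L') : Spread V t L' := by
  intro U hU S T w hw hn m x B hB hx
  refine h U hU S T w hw hn m x B hB (le_trans ?_ hx)
  apply mul_le_mul_of_nonneg_right hL
  positivity

theorem spread_next {V : Type} [Fintype V] [DecidableEq V] [Nonempty V] {t : ℕ} {L : ℝ}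
    (hL : 1 ≤ L) (hS : Spread V t L) (K : ℕ) (M : ℝ) (hM : 1 ≤ M)
    (h : 2 * (12 * dd V L) ^ (K * (K + 1)) * Fintype.card V ≤ M ^ (K + 1)) :
    Spread V (t + 1) (20 * (2 * M * lam V) ^ 2 * L) := by
  have h1 := tail_of_spread hL hS K M hM h
  have h2 := tailM_of_tail hM h1
  have h3 : 1 ≤ lam V := lam_pos
  have h4 : 1 ≤ 2 * M * lam V := by nlinarith
  exact spread_step hL h4 hS h2

/-- `log (2N+2) ≤ C N^η` -/
theorem lam_le (η : ℝ) (hη : 0 < η) :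
    ∃ C : ℝ, 1 ≤ C ∧ ∀ (V : Type) [Fintype V] [Nonempty V],
      lam V ≤ C * (Fintype.card V : ℝ) ^ η := by
  refine ⟨2 + 1 / η, ?_, ?_⟩
  · have : 0 < 1 / η := by positivity
    linarith
  · intro V _ _
    have hN : (1 : ℝ) ≤ Fintype.card V := by exact_mod_cast Fintype.card_pos
    have hN0 : (0 : ℝ) < Fintype.card V := by linarith
    have h1 : lam V ≤ Real.log (4 * Fintype.card V) := by
      rw [lam]
      apply Real.log_le_log (by positivity)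
      linarith
    rw [Real.log_mul (by norm_num) hN0.ne'] at h1
    have h2 : Real.log 4 ≤ 2 := by
      have h3 : Real.log 4 = 2 * Real.log 2 := by
        rw [show (4 : ℝ) = 2 ^ 2 by norm_num, Real.log_pow]
        norm_num
      have := Real.log_two_lt_d9
      linarith
    have h3 := Real.log_le_rpow_div hN0.le hη
    have h4 : 1 ≤ (Fintype.card V : ℝ) ^ η := Real.one_le_rpow hN hη.le
    calc lam V ≤ 2 + (Fintype.card V : ℝ) ^ η / η := by linarith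
      _ ≤ 2 * (Fintype.card V : ℝ) ^ η + (Fintype.card V : ℝ) ^ η / η := by linarith
      _ = (2 + 1 / η) * (Fintype.card V : ℝ) ^ η := by ring

/-- arithmetic of the induction step -/
private theorem asm_arith (K : ℕ) (C1 C2 y z l D M N : ℝ) (hC1 : 1 ≤ C1) (hC2 : 1 ≤ C2)
    (hy : 1 ≤ y) (hz : 1 ≤ z) (hl1 : 1 ≤ l) (hl : l ≤ C2 * y) (hzN : z ^ (K + 1) = N)
    (hD : D = (208 * (C1 * y) * l ^ 2) ^ 2)
    (hM : M = 2 * (12 * 208 ^ 2 * C1 ^ 2 * C2 ^ 4 * y ^ 6) ^ K * z) :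
    1 ≤ M ∧ 2 * (12 * D) ^ (K * (K + 1)) * N ≤ M ^ (K + 1) ∧
    20 * (2 * M * l) ^ 2 * (C1 * y) ≤
      320 * (12 * 208 ^ 2 * C1 ^ 2 * C2 ^ 4) ^ (2 * K) * C2 ^ 2 * C1 * (y ^ (12 * K + 3) * z ^ 2) := by
  have hl0 : 0 ≤ l := by linarith
  have hy0 : 0 < y := by linarith
  have hz0 : 0 < z := by linarith
  have hC10 : 0 < C1 := by linarith
  have hC20 : 0 < C2 := by linarith
  obtain ⟨C3, hC3⟩ : ∃ C3, C3 = 12 * 208 ^ 2 * C1 ^ 2 * C2 ^ 4 := ⟨_, rfl⟩
  have hC31 : 1 ≤ C3 := by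
    have h1 : 1 ≤ C1 ^ 2 := one_le_pow₀ hC1
    have h2 : 1 ≤ C2 ^ 4 := one_le_pow₀ hC2
    have h3 : 1 ≤ C1 ^ 2 * C2 ^ 4 := one_le_mul_of_one_le_of_one_le h1 h2
    rw [hC3]
    calc (1 : ℝ) ≤ 12 * 208 ^ 2 * 1 := by norm_num
      _ ≤ 12 * 208 ^ 2 * (C1 ^ 2 * C2 ^ 4) := mul_le_mul_of_nonneg_left h3 (by norm_num)
      _ = _ := by ring
  rw [← hC3] at hM ⊢
  have hC30 : 0 < C3 := by linarith
  have hDle : 12 * D ≤ C3 * y ^ 6 := by
    have h4 : l ^ 4 ≤ (C2 * y) ^ 4 := pow_le_pow_left₀ hl0 hl 4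
    rw [hD, hC3]
    calc 12 * (208 * (C1 * y) * l ^ 2) ^ 2 = 12 * 208 ^ 2 * C1 ^ 2 * y ^ 2 * l ^ 4 := by ring
      _ ≤ 12 * 208 ^ 2 * C1 ^ 2 * y ^ 2 * (C2 * y) ^ 4 :=
        mul_le_mul_of_nonneg_left h4 (by positivity)
      _ = _ := by ring
  have hD0 : 0 ≤ 12 * D := by
    rw [hD]
    positivity
  have hCy : 1 ≤ C3 * y ^ 6 := one_le_mul_of_one_le_of_one_le hC31 (one_le_pow₀ hy)
  have hM1 : 1 ≤ M := by
    rw [hM]
    have h5 : 1 ≤ (C3 * y ^ 6) ^ K := one_le_pow₀ hCy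
    have h6 : 1 ≤ (C3 * y ^ 6) ^ K * z := one_le_mul_of_one_le_of_one_le h5 hz
    calc (1 : ℝ) ≤ 2 * 1 := by norm_num
      _ ≤ 2 * ((C3 * y ^ 6) ^ K * z) := mul_le_mul_of_nonneg_left h6 (by norm_num)
      _ = _ := by ring
  refine ⟨hM1, ?_, ?_⟩
  · have h7 : M ^ (K + 1) = 2 ^ (K + 1) * (C3 * y ^ 6) ^ (K * (K + 1)) * N := by
      rw [hM, mul_pow, mul_pow, hzN, pow_mul]
    rw [h7]
    have hN0 : 0 ≤ N := by rw [← hzN]; positivity
    apply mul_le_mul_of_nonneg_right _ hN0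
    have h8 : (2 : ℝ) ≤ 2 ^ (K + 1) := by
      calc (2 : ℝ) = 2 ^ 1 := (pow_one 2).symm
        _ ≤ 2 ^ (K + 1) := pow_le_pow_right₀ (by norm_num) (by omega)
    exact mul_le_mul h8 (pow_le_pow_left₀ hD0 hDle _) (by positivity) (by positivity)
  · have h9 : l ^ 2 ≤ (C2 * y) ^ 2 := pow_le_pow_left₀ hl0 hl 2
    calc 20 * (2 * M * l) ^ 2 * (C1 * y) = 80 * M ^ 2 * (C1 * y) * l ^ 2 := by ring
      _ ≤ 80 * M ^ 2 * (C1 * y) * (C2 * y) ^ 2 := mul_le_mul_of_nonneg_left h9 (by positivity)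
      _ = 320 * C3 ^ (2 * K) * C2 ^ 2 * C1 * (y ^ (12 * K + 3) * z ^ 2) := by
        have h10 : y ^ (12 * K + 3) = ((y ^ 6) ^ K) ^ 2 * y ^ 3 := by
          rw [pow_add, ← pow_mul, ← pow_mul]
          congr 2
          ring
        rw [h10, hM, mul_pow C3, pow_mul' C3]
        ring

theorem spread_all (t : ℕ) : ∀ η : ℝ, 0 < η → ∃ C : ℝ, 1 ≤ C ∧
    ∀ (V : Type) [Fintype V] [DecidableEq V] [Nonempty V],
      Spread V t (C * (Fintype.card V : ℝ) ^ η) := by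
  induction t with
  | zero =>
    intro η hη
    refine ⟨1, le_rfl, ?_⟩
    intro V _ _ _
    have hN : (1 : ℝ) ≤ Fintype.card V := by exact_mod_cast Fintype.card_pos
    refine Spread.mono spread_zero ?_
    rw [one_mul]
    exact Real.one_le_rpow hN hη.le
  | succ t ih =>
    intro η hη
    obtain ⟨K, hK⟩ := exists_nat_ge (4 / η)
    have hK0 : (0 : ℝ) ≤ K := Nat.cast_nonneg K
    have he : 0 < η / (2 * (12 * K + 3)) := by positivity
    obtain ⟨C1, hC1, H1⟩ := ih _ he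
    obtain ⟨C2, hC2, H2⟩ := lam_le _ he
    have hC3 : 1 ≤ 12 * 208 ^ 2 * C1 ^ 2 * C2 ^ 4 := by
      have h1 : 1 ≤ C1 ^ 2 := one_le_pow₀ hC1
      have h2 : 1 ≤ C2 ^ 4 := one_le_pow₀ hC2
      have h3 : 1 ≤ C1 ^ 2 * C2 ^ 4 := one_le_mul_of_one_le_of_one_le h1 h2
      calc (1 : ℝ) ≤ 12 * 208 ^ 2 * 1 := by norm_num
        _ ≤ 12 * 208 ^ 2 * (C1 ^ 2 * C2 ^ 4) := mul_le_mul_of_nonneg_left h3 (by norm_num)
        _ = _ := by ring
    refine ⟨320 * (12 * 208 ^ 2 * C1 ^ 2 * C2 ^ 4) ^ (2 * K) * C2 ^ 2 * C1, ?_, ?_⟩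
    · have h1 := one_le_pow₀ hC3 (n := 2 * K)
      have h2 : 1 ≤ C2 ^ 2 := one_le_pow₀ hC2
      have h3 := one_le_mul_of_one_le_of_one_le h1 (one_le_mul_of_one_le_of_one_le h2 hC1)
      calc (1 : ℝ) ≤ 320 * 1 := by norm_num
        _ ≤ 320 * ((12 * 208 ^ 2 * C1 ^ 2 * C2 ^ 4) ^ (2 * K) * (C2 ^ 2 * C1)) :=
          mul_le_mul_of_nonneg_left h3 (by norm_num)
        _ = _ := by ring
    · intro V _ _ _
      have hN : (1 : ℝ) ≤ Fintype.card V := by exact_mod_cast Fintype.card_pos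
      have hN0 : (0 : ℝ) < Fintype.card V := by linarith
      have hS := H1 V
      have hlam := H2 V
      obtain ⟨N, hNdef⟩ : ∃ N : ℝ, N = Fintype.card V := ⟨_, rfl⟩
      rw [← hNdef] at hN hN0 hS hlam ⊢
      obtain ⟨y, hydef⟩ : ∃ y : ℝ, y = N ^ (η / (2 * (12 * (K : ℝ) + 3))) := ⟨_, rfl⟩
      obtain ⟨z, hzdef⟩ : ∃ z : ℝ, z = N ^ (((K + 1 : ℕ) : ℝ)⁻¹) := ⟨_, rfl⟩
      rw [← hydef] at hS hlam
      have hy : 1 ≤ y := by
        rw [hydef]
        exact Real.one_le_rpow hN he.le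
      have hz : 1 ≤ z := by
        rw [hzdef]
        exact Real.one_le_rpow hN (by positivity)
      have hzN : z ^ (K + 1) = N := by
        rw [hzdef]
        exact Real.rpow_inv_natCast_pow hN0.le (by omega)
      obtain ⟨hM1, hM2, hM3⟩ := asm_arith K C1 C2 y z (lam V) (dd V (C1 * y))
        (2 * (12 * 208 ^ 2 * C1 ^ 2 * C2 ^ 4 * y ^ 6) ^ K * z) N hC1 hC2 hy hz lam_pos hlam hzN
        rfl rfl
      have hL : 1 ≤ C1 * y := one_le_mul_of_one_le_of_one_le hC1 hy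
      have hnext := spread_next hL hS K _ hM1 (by rw [← hNdef]; exact hM2)
      refine hnext.mono (hM3.trans ?_)
      apply mul_le_mul_of_nonneg_left _ (by positivity)
      have h1 : y ^ (12 * K + 3) = N ^ (η / 2) := by
        rw [hydef, ← Real.rpow_natCast, ← Real.rpow_mul hN0.le]
        congr 1
        push_cast
        field_simp
      have h2 : z ^ 2 ≤ N ^ (η / 2) := by
        rw [hzdef, ← Real.rpow_natCast, ← Real.rpow_mul hN0.le]
        apply Real.rpow_le_rpow_of_exponent_le hN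
        push_cast
        rw [inv_mul_eq_div, div_le_div_iff₀ (by positivity) (by norm_num)]
        rw [div_le_iff₀ hη] at hK
        nlinarith
      calc y ^ (12 * K + 3) * z ^ 2 ≤ N ^ (η / 2) * N ^ (η / 2) := by
            rw [h1]
            exact mul_le_mul_of_nonneg_left h2 (by positivity)
        _ = N ^ η := by
            rw [← Real.rpow_add hN0]
            congr 1
            ring

end P368M
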