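import Vale.Agent.P368M.Norm

/-! Module NEWTON: Newton expansion of a polynomial of the number of false bits.

`ncoef_eq_zero`, `newton`: `fwdDiff_iter_eq_sum_shift`, `shift_eq_sum_fwdDiff_iter`,
`Polynomial.fwdDiff_iter_eq_zero_of_degree_lt` (file Mathlib/Algebra/Group/ForwardDiff.lean), or
by hand.  `diag_expand`: pointwise, `∑_{T ⊆ S} a_{|T|} [x false on T] = ∑_j C(cnt S x, j) a_j`
(`Finset.sum_powerset_apply_card`).  `norm_expand`: `|ncoef q j| ≤ 2^j` for `j ≤ ρ`, `j ≤ N`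
and `∑_{T ⊆ S, |T| ≤ ρ} 2^|T| = ∑_{j ≤ ρ} C(|S|,j) 2^j ≤ ∑_{j ≤ ρ} C(ρ,j) (2N)^j = (2N+1)^ρ`
(`Nat.choose_le_pow...`: `C(N,j) ≤ N^j ≤ C(ρ,j) N^j`). -/

namespace P368M

open scoped Matrix.Norms.L2Operator
open Polynomial

/-- `j`-th forward difference of `g` at `0` -/
noncomputable def ncoef (g : ℕ → ℝ) (j : ℕ) : ℝ :=
  ∑ i ∈ Finset.range (j + 1), (-1) ^ (j - i) * (j.choose i : ℝ) * g i

theorem ncoef_eq_fwdDiff (g : ℕ → ℝ) (j : ℕ) : ncoef g j = (fwdDiff 1)^[j] g 0 := by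
  rw [fwdDiff_iter_eq_sum_shift]
  unfold ncoef
  refine Finset.sum_congr rfl fun i _ => ?_
  rw [zsmul_eq_mul]
  push_cast
  simp

theorem newton (g : ℕ → ℝ) (m : ℕ) :
    g m = ∑ j ∈ Finset.range (m + 1), (m.choose j : ℝ) * ncoef g j := by
  have h := shift_eq_sum_fwdDiff_iter (1 : ℕ) g m 0
  have h2 : (0 : ℕ) + m • 1 = m := by simp
  rw [h2] at h
  rw [h]
  refine Finset.sum_congr rfl fun j _ => ?_
  rw [ncoef_eq_fwdDiff, nsmul_eq_mul]

theorem ncoef_eq_zero (q : ℝ[X]) {ρ j : ℕ} (h : q.natDegree ≤ ρ) (hj : ρ < j) :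
    ncoef (fun m => q.eval (m : ℝ)) j = 0 := by
  have h1 : ncoef (fun m => q.eval (m : ℝ)) j = (fwdDiff (1 : ℝ))^[j] (fun x => q.eval x) 0 := by
    rw [fwdDiff_iter_eq_sum_shift]
    unfold ncoef
    refine Finset.sum_congr rfl fun i _ => ?_
    rw [zsmul_eq_mul]
    push_cast
    simp
  rw [h1]
  have h2 := Polynomial.fwdDiff_iter_eq_zero_of_degree_lt (P := q) (n := j) (by omega)
  have h3 := congrFun h2 0
  exact h3

variable {V : Type} [Fintype V] [DecidableEq V]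

theorem newton_sum (g : ℕ → ℝ) (ρ : ℕ) (h : ∀ j, ρ < j → ncoef g j = 0) (S : Finset V)
    (x : V → Bool) :
    g (cnt S x) = ∑ T ∈ S.powerset.filter (fun T => T.card ≤ ρ),
      ncoef g T.card * (if ∀ i ∈ T, x i = false then 1 else 0) := by
  rw [newton g (cnt S x)]
  have h1 : ∑ j ∈ Finset.range (cnt S x + 1), ((cnt S x).choose j : ℝ) * ncoef g j =
      ∑ T ∈ (S.filter fun i => x i = false).powerset, ncoef g T.card := by
    rw [Finset.sum_powerset_apply_card (fun j => ncoef g j)]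
    refine Finset.sum_congr rfl fun j _ => ?_
    rw [nsmul_eq_mul]
    rfl
  rw [h1, Finset.sum_filter]
  have h2 : ∀ T ∈ S.powerset, (if T.card ≤ ρ then
      ncoef g T.card * (if ∀ i ∈ T, x i = false then 1 else 0) else 0) =
      if ∀ i ∈ T, x i = false then ncoef g T.card else 0 := by
    intro T _
    by_cases h3 : T.card ≤ ρ
    · rw [if_pos h3]
      split_ifs <;> simp
    · rw [if_neg h3, h T.card (not_le.1 h3)]
      simp
  rw [Finset.sum_congr rfl h2, ← Finset.sum_filter]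
  refine Finset.sum_congr ?_ fun _ _ => rfl
  ext T
  simp only [Finset.mem_powerset, Finset.mem_filter, Finset.subset_iff]
  constructor
  · intro h4
    exact ⟨fun i hi => (h4 hi).1, fun i hi => (h4 hi).2⟩
  · rintro ⟨h4, h5⟩ i hi
    exact ⟨h4 hi, h5 i hi⟩

theorem diag_expand (g : ℕ → ℝ) (ρ : ℕ) (h : ∀ j, ρ < j → ncoef g j = 0) (S : Finset V) :
    (Matrix.diagonal fun x : V → Bool => ((g (cnt S x) : ℝ) : ℂ)) =
      ∑ T ∈ S.powerset.filter (fun T => T.card ≤ ρ), ((ncoef g T.card : ℝ) : ℂ) • qf T := by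
  ext x y
  rw [Matrix.sum_apply]
  by_cases hxy : x = y
  · subst hxy
    rw [Matrix.diagonal_apply_eq, newton_sum g ρ h S x]
    push_cast
    refine Finset.sum_congr rfl fun T _ => ?_
    rw [Matrix.smul_apply, qf, Matrix.diagonal_apply_eq, smul_eq_mul]
    congr 1
    split_ifs <;> simp
  · rw [Matrix.diagonal_apply_ne _ hxy]
    symm
    refine Finset.sum_eq_zero fun T _ => ?_
    rw [Matrix.smul_apply, qf, Matrix.diagonal_apply_ne _ hxy, smul_zero]

theorem ncoef_abs_le (g : ℕ → ℝ) (j : ℕ) (h : ∀ i ≤ j, |g i| ≤ 1) : |ncoef g j| ≤ 2 ^ j := by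
  unfold ncoef
  refine (Finset.abs_sum_le_sum_abs _ _).trans ?_
  have h1 : ∀ i ∈ Finset.range (j + 1), |(-1) ^ (j - i) * (j.choose i : ℝ) * g i| ≤
      (j.choose i : ℝ) := by
    intro i hi
    rw [abs_mul, abs_mul, abs_pow, abs_neg, abs_one, one_pow, one_mul, Nat.abs_cast]
    have h2 := h i (by rw [Finset.mem_range] at hi; omega)
    calc (j.choose i : ℝ) * |g i| ≤ (j.choose i : ℝ) * 1 :=
          mul_le_mul_of_nonneg_left h2 (Nat.cast_nonneg _)
      _ = _ := mul_one _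
  refine (Finset.sum_le_sum h1).trans ?_
  rw [← Nat.cast_sum, Nat.sum_range_choose]
  push_cast
  exact le_rfl

omit [DecidableEq V] in
theorem sum_pow_card_le (S : Finset V) (ρ : ℕ) :
    ∑ T ∈ S.powerset.filter (fun T => T.card ≤ ρ), (2 : ℝ) ^ T.card ≤
      (2 * Fintype.card V + 1) ^ ρ := by
  rw [Finset.sum_filter, Finset.sum_powerset_apply_card (fun j => if j ≤ ρ then (2 : ℝ) ^ j else 0)]
  have h1 : (2 * (Fintype.card V : ℝ) + 1) ^ ρ =
      ∑ j ∈ Finset.range (ρ + 1), (2 * (Fintype.card V : ℝ)) ^ j * (ρ.choose j : ℝ) := by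
    rw [add_pow]
    refine Finset.sum_congr rfl fun j _ => ?_
    rw [one_pow, mul_one]
  rw [h1]
  have h2 : ∑ m ∈ Finset.range (S.card + 1), (S.card.choose m) • (if m ≤ ρ then (2 : ℝ) ^ m else 0) =
      ∑ m ∈ (Finset.range (S.card + 1)).filter (fun m => m ≤ ρ),
        (S.card.choose m : ℝ) * (2 : ℝ) ^ m := by
    rw [Finset.sum_filter]
    refine Finset.sum_congr rfl fun m _ => ?_
    rw [nsmul_eq_mul]
    split_ifs <;> simp
  rw [h2]
  refine (Finset.sum_le_sum_of_subset_of_nonneg (t := Finset.range (ρ + 1)) ?_ ?_).trans ?_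
  · intro m hm
    rw [Finset.mem_filter] at hm
    rw [Finset.mem_range]
    omega
  · intro m _ _
    positivity
  · refine Finset.sum_le_sum fun m hm => ?_
    rw [Finset.mem_range] at hm
    have h3 : (S.card.choose m : ℝ) ≤ (Fintype.card V : ℝ) ^ m := by
      have h4 : S.card.choose m ≤ Fintype.card V ^ m :=
        (Nat.choose_le_pow _ _).trans (Nat.pow_le_pow_left (Finset.card_le_univ S) m)
      exact_mod_cast h4
    have h5 : (1 : ℝ) ≤ (ρ.choose m : ℝ) := by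
      have : 1 ≤ ρ.choose m := Nat.choose_pos (by omega)
      exact_mod_cast this
    calc (S.card.choose m : ℝ) * (2 : ℝ) ^ m ≤ (Fintype.card V : ℝ) ^ m * 2 ^ m :=
          mul_le_mul_of_nonneg_right h3 (by positivity)
      _ = (2 * (Fintype.card V : ℝ)) ^ m * 1 := by rw [mul_pow]; ring
      _ ≤ _ := mul_le_mul_of_nonneg_left h5 (by positivity)

theorem norm_expand (A B : Op V) (ε : ℝ) (hε : 0 ≤ ε) (q : ℝ[X]) (ρ : ℕ)
    (hq : q.natDegree ≤ ρ)
    (hq1 : ∀ m : ℕ, m ≤ ρ → m ≤ Fintype.card V → |q.eval (m : ℝ)| ≤ 1)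
    (hT : ∀ T : Finset V, T.card ≤ ρ → ‖A * qf T * B‖ ≤ ε) (S : Finset V) :
    ‖A * (Matrix.diagonal fun x : V → Bool => ((q.eval (cnt S x : ℝ) : ℝ) : ℂ)) * B‖ ≤
      (2 * Fintype.card V + 1) ^ ρ * ε := by
  have h1 := diag_expand (V := V) (fun m => q.eval (m : ℝ)) ρ
    (fun j hj => ncoef_eq_zero q hq hj) S
  beta_reduce at h1
  rw [h1, Finset.mul_sum, Finset.sum_mul]
  refine (norm_sum_le _ _).trans ?_
  have h2 : ∀ T ∈ S.powerset.filter (fun T => T.card ≤ ρ),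
      ‖A * (((ncoef (fun m => q.eval (m : ℝ)) T.card : ℝ) : ℂ) • qf T) * B‖ ≤ 2 ^ T.card * ε := by
    intro T hTm
    rw [Finset.mem_filter] at hTm
    rw [mul_smul_comm, smul_mul_assoc, norm_smul]
    refine mul_le_mul ?_ (hT T hTm.2) (norm_nonneg _) (by positivity)
    rw [Complex.norm_real, Real.norm_eq_abs]
    refine ncoef_abs_le _ _ fun i hi => hq1 i (by omega) ?_
    exact hi.trans (Finset.card_le_univ T)
  refine (Finset.sum_le_sum h2).trans ?_
  rw [← Finset.sum_mul]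
  exact mul_le_mul_of_nonneg_right (sum_pow_card_le S ρ) hε

end P368M
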