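import Vale.Agent.P368M.Circuits
import Vale.Agent.P368M.Newton

/-! Module GENM: from the tail bound with `pr S = le S 0` to general `le S m`.

For `T ⊆ S` let `E_T` be the diagonal projection on the strings whose set of false bits in `S`
is exactly `T`.  Then `le S m = ∑_{T ⊆ S, |T| ≤ m} E_T`, `E_T = pr (S \ T) * E_T`,
`ge S x = ge S x * ge (S \ T) (x - m)` for `|T| ≤ m`, and there are at most
`(N+1)^m ≤ exp (lam * m)` sets.  Apply the hypothesis to `S \ T`, with
`b' = lam V * m + b` and `x - m`:  `Λ * b' ≤ x - m`. -/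

namespace P368M

open scoped Matrix.Norms.L2Operator

variable {V : Type} [Fintype V] [DecidableEq V]

omit [DecidableEq V] in
theorem lam_pos [Nonempty V] : 1 ≤ lam V := by
  unfold lam
  have h1 : (1 : ℝ) ≤ Fintype.card V := by
    have : 1 ≤ Fintype.card V := Fintype.card_pos
    exact_mod_cast this
  rw [Real.le_log_iff_exp_le (by positivity)]
  have := Real.exp_one_lt_d9
  linarith

omit [DecidableEq V] in
theorem lam_nonneg : 0 ≤ lam V := by
  unfold lam
  refine Real.log_nonneg ?_
  have h1 : (0 : ℝ) ≤ Fintype.card V := Nat.cast_nonneg _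
  linarith

/-- the projection on the strings whose set of false bits in `S` is `T` -/
noncomputable def genE (S T : Finset V) : Op V :=
  Matrix.diagonal fun x => if S.filter (fun i => x i = false) = T then 1 else 0

theorem genE_norm (S T : Finset V) : ‖genE S T‖ ≤ 1 := by
  refine norm_diag_le _ zero_le_one fun x => ?_
  split_ifs <;> simp

theorem le_eq_sum_genE (S : Finset V) (m : ℕ) :
    le S m = ∑ T ∈ S.powerset.filter (fun T => T.card ≤ m), genE S T := by
  ext x y
  rw [Matrix.sum_apply]
  by_cases hxy : x = y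
  · subst hxy
    unfold le genE
    simp only [Matrix.diagonal_apply_eq]
    rw [Finset.sum_ite_eq]
    have h1 : S.filter (fun i => x i = false) ∈ S.powerset.filter (fun T => T.card ≤ m) ↔
        cnt S x ≤ m := by
      rw [Finset.mem_filter, Finset.mem_powerset]
      exact ⟨fun h => h.2, fun h => ⟨Finset.filter_subset _ _, h⟩⟩
    simp only [h1]
  · unfold le genE
    simp only [Matrix.diagonal_apply_ne _ hxy]
    rw [Finset.sum_const_zero]

theorem genE_pr (S T : Finset V) : genE S T = pr (S \ T) * genE S T := by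
  unfold genE pr
  rw [Matrix.diagonal_mul_diagonal]
  congr 1
  funext x
  by_cases h : S.filter (fun i => x i = false) = T
  · rw [if_pos h, mul_one, if_pos]
    intro i hi
    rw [Finset.mem_sdiff] at hi
    by_contra h2
    apply hi.2
    rw [← h, Finset.mem_filter]
    exact ⟨hi.1, by simpa using h2⟩
  · rw [if_neg h, mul_zero]

theorem cnt_sdiff (S T : Finset V) (x : V → Bool) : cnt S x ≤ cnt (S \ T) x + T.card := by
  unfold cnt
  have h : S.filter (fun i => x i = false) ⊆ (S \ T).filter (fun i => x i = false) ∪ T := by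
    intro i hi
    rw [Finset.mem_filter] at hi
    rw [Finset.mem_union, Finset.mem_filter, Finset.mem_sdiff]
    by_cases hT : i ∈ T
    · exact Or.inr hT
    · exact Or.inl ⟨⟨hi.1, hT⟩, hi.2⟩
  exact (Finset.card_le_card h).trans (Finset.card_union_le _ _)

theorem ge_mul_ge (S T : Finset V) (m x : ℕ) (h : T.card ≤ m) :
    ge S x = ge S x * ge (S \ T) (x - m) := by
  unfold ge
  rw [Matrix.diagonal_mul_diagonal]
  congr 1
  funext y
  by_cases h1 : x ≤ cnt S y
  · have h2 := cnt_sdiff S T y
    rw [if_pos h1, one_mul, if_pos (by omega)]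
  · rw [if_neg h1, zero_mul]

omit [DecidableEq V] in
theorem exp_lam_mul (m : ℕ) : Real.exp (lam V * m) = (2 * Fintype.card V + 2) ^ m := by
  unfold lam
  have h1 : (0 : ℝ) < 2 * Fintype.card V + 2 := by positivity
  rw [mul_comm, ← Real.log_pow, Real.exp_log (by positivity)]

theorem tailM_of_tail [Nonempty V] {t : ℕ} {Λ : ℝ} (hΛ : 1 ≤ Λ)
    (h : ∀ (b : ℝ) (x : ℕ), 1 ≤ b → Λ * b ≤ x → TailB V t b x) :
    TailM V t (2 * Λ * lam V) := by
  intro U hU S S' m x b hb hx
  have hlam : 1 ≤ lam V := lam_pos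
  have hm0 : (0 : ℝ) ≤ m := Nat.cast_nonneg m
  have hΛl : 1 ≤ Λ * lam V := one_le_mul_of_one_le_of_one_le hΛ hlam
  have h1 : (m : ℝ) + b ≤ Λ * lam V * (m + b) := by
    have : 0 ≤ (m : ℝ) + b := by linarith
    nlinarith
  have hmx : m ≤ x := by
    have h2 : (m : ℝ) ≤ x := by nlinarith
    exact_mod_cast h2
  set b' : ℝ := lam V * m + b with hb'
  have hb'1 : 1 ≤ b' := by
    have : 0 ≤ lam V * m := mul_nonneg lam_nonneg hm0
    linarith
  have hxm : Λ * b' ≤ ((x - m : ℕ) : ℝ) := by
    rw [Nat.cast_sub hmx, hb']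
    have h3 : Λ * (lam V * m + b) ≤ Λ * lam V * (m + b) := by
      have h4 : Λ * b ≤ Λ * lam V * b := by
        have : 0 ≤ Λ * b := by positivity
        nlinarith
      nlinarith
    nlinarith
  have hT := h b' (x - m) hb'1 hxm U hU
  rw [le_eq_sum_genE, Finset.mul_sum]
  refine (norm_sum_le _ _).trans ?_
  have h5 : ∀ T ∈ S.powerset.filter (fun T => T.card ≤ m),
      ‖ge S x * (U * pr S' * star U) * genE S T‖ ≤ 2 ^ T.card * Real.exp (-b') := by
    intro T hTm
    rw [Finset.mem_filter] at hTm
    have h6 : ge S x * (U * pr S' * star U) * genE S T =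
        ge S x * (ge (S \ T) (x - m) * (U * pr S' * star U) * pr (S \ T)) * genE S T := by
      conv_lhs => rw [ge_mul_ge S T m x hTm.2, genE_pr S T]
      simp only [mul_assoc]
    rw [h6]
    have h7 := hT (S \ T) S'
    calc ‖ge S x * (ge (S \ T) (x - m) * (U * pr S' * star U) * pr (S \ T)) * genE S T‖
        ≤ ‖ge S x * (ge (S \ T) (x - m) * (U * pr S' * star U) * pr (S \ T))‖ * ‖genE S T‖ :=
          norm_mul_le _ _
      _ ≤ (‖ge S x‖ * ‖ge (S \ T) (x - m) * (U * pr S' * star U) * pr (S \ T)‖) * ‖genE S T‖ :=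
          mul_le_mul_of_nonneg_right (norm_mul_le _ _) (norm_nonneg _)
      _ ≤ (1 * Real.exp (-b')) * 1 := by
          refine mul_le_mul ?_ (genE_norm S T) (norm_nonneg _) (by positivity)
          exact mul_le_mul (norm_ge_le S x) h7 (norm_nonneg _) zero_le_one
      _ = 1 * Real.exp (-b') := by ring
      _ ≤ 2 ^ T.card * Real.exp (-b') :=
          mul_le_mul_of_nonneg_right (one_le_pow₀ (by norm_num)) (Real.exp_pos _).le
  refine (Finset.sum_le_sum h5).trans ?_
  rw [← Finset.sum_mul]
  have h8 : ∑ T ∈ S.powerset.filter (fun T => T.card ≤ m), (2 : ℝ) ^ T.card ≤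
      Real.exp (lam V * m) := by
    rw [exp_lam_mul]
    refine (sum_pow_card_le S m).trans ?_
    exact pow_le_pow_left₀ (by positivity) (by linarith) m
  calc (∑ T ∈ S.powerset.filter (fun T => T.card ≤ m), (2 : ℝ) ^ T.card) * Real.exp (-b')
      ≤ Real.exp (lam V * m) * Real.exp (-b') :=
        mul_le_mul_of_nonneg_right h8 (Real.exp_pos _).le
    _ = Real.exp (-b) := by
        rw [← Real.exp_add]
        congr 1
        rw [hb']
        ring

end P368M
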