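import Mathlib

open Polynomial

namespace P368.Moore

private theorem cosh_le_one_add_sq {t : ℝ} (_h0 : 0 ≤ t) (h : t ^ 2 ≤ 2) :
    Real.cosh t ≤ 1 + t ^ 2 := by
  have h1 : Real.cosh t ≤ Real.exp (t ^ 2 / 2) := Real.cosh_le_exp_half_sq t
  have h2 : Real.exp (t ^ 2 / 2) ≤ 1 + 2 * (t ^ 2 / 2) := by
    set x := t ^ 2 / 2 with hx
    have hx0 : 0 ≤ x := by positivity
    have hx1 : x ≤ 1 := by rw [hx]; linarith
    have hc := convexOn_exp.2 (Set.mem_univ (0:ℝ)) (Set.mem_univ (1:ℝ)) (by linarith : 0 ≤ 1 - x) hx0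
      (by ring)
    simp only [smul_eq_mul, mul_zero, zero_add, Real.exp_zero, mul_one] at hc
    have he := Real.exp_one_lt_d9
    have : x * Real.exp 1 ≤ x * 3 := mul_le_mul_of_nonneg_left (by linarith) hx0
    linarith
  linarith

private theorem exists_cosh {z : ℝ} (hz : 1 ≤ z) : ∃ θ : ℝ, 0 ≤ θ ∧ Real.cosh θ = z := by
  refine ⟨Real.arcosh z, Real.arcosh_nonneg hz, Real.cosh_arcosh hz⟩

theorem T_lower (K : ℕ) {u : ℝ} (h0 : 0 ≤ u) (h2 : u ≤ 2) :
    Real.exp (K * √u) / 2 ≤ (Chebyshev.T ℝ (K : ℤ)).eval (1 + u) := by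
  obtain ⟨θ, hθ0, hθ⟩ := exists_cosh (z := 1 + u) (by linarith)
  have h1 : √u ≤ θ := by
    have : Real.cosh √u ≤ Real.cosh θ := by
      rw [hθ]
      have := cosh_le_one_add_sq (Real.sqrt_nonneg u) (by rw [Real.sq_sqrt h0]; exact h2)
      rwa [Real.sq_sqrt h0] at this
    have := Real.cosh_le_cosh.1 this
    rwa [abs_of_nonneg (Real.sqrt_nonneg _), abs_of_nonneg hθ0] at this
  rw [← hθ, Chebyshev.T_real_cosh]
  have h3 : Real.exp (K * √u) ≤ Real.exp (((K : ℤ) : ℝ) * θ) := by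
    apply Real.exp_le_exp.2
    push_cast
    exact mul_le_mul_of_nonneg_left h1 (Nat.cast_nonneg _)
  rw [Real.cosh_eq]
  have := Real.exp_pos (-(((K : ℤ) : ℝ) * θ))
  linarith

theorem T_upper (K : ℕ) {z w : ℝ} (hw : 1 ≤ w) (h : |z| ≤ w) :
    |(Chebyshev.T ℝ (K : ℤ)).eval z| ≤ (2 * w) ^ K := by
  rcases le_total |z| 1 with h1 | h1
  · exact (Chebyshev.abs_eval_T_real_le_one _ h1).trans (one_le_pow₀ (by linarith))
  · have key : ∀ y : ℝ, 1 ≤ y → y ≤ w → |(Chebyshev.T ℝ (K : ℤ)).eval y| ≤ (2 * w) ^ K := by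
      intro y hy hyw
      obtain ⟨θ, hθ0, hθ⟩ := exists_cosh hy
      rw [← hθ, Chebyshev.T_real_cosh, abs_of_nonneg (Real.cosh_pos _).le]
      have e1 : Real.cosh (((K : ℤ) : ℝ) * θ) ≤ Real.exp (((K : ℤ) : ℝ) * θ) := by
        rw [Real.cosh_eq]
        have : Real.exp (-(((K : ℤ) : ℝ) * θ)) ≤ Real.exp (((K : ℤ) : ℝ) * θ) := by
          apply Real.exp_le_exp.2
          have : 0 ≤ ((K : ℤ) : ℝ) * θ := by push_cast; positivity
          linarith
        linarith
      refine e1.trans ?_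
      push_cast
      rw [Real.exp_nat_mul]
      apply pow_le_pow_left₀ (Real.exp_pos _).le
      have : Real.exp θ ≤ 2 * Real.cosh θ := by
        rw [Real.cosh_eq]
        have := Real.exp_pos (-θ)
        linarith
      rw [hθ] at this
      linarith
    rcases le_abs'.1 h1 with hz | hz
    · have h2 := key (-z) (by linarith) (by rw [abs_of_nonpos (by linarith)] at h; exact h)
      rw [Chebyshev.T_eval_neg] at h2
      simpa [abs_mul] using h2
    · exact key z hz ((le_abs_self z).trans h)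

/-- The product `∏_{j=1}^s (1 - X/j)`. -/
noncomputable def kill (s : ℕ) : ℝ[X] :=
  ∏ j ∈ Finset.Icc 1 s, (1 - C ((j : ℝ)⁻¹) * X)

theorem kill_zero (s : ℕ) : (kill s).eval 0 = 1 := by
  simp [kill, eval_prod]

theorem kill_eq_zero {s m : ℕ} (h1 : 1 ≤ m) (h2 : m ≤ s) : (kill s).eval (m : ℝ) = 0 := by
  rw [kill, eval_prod]
  apply Finset.prod_eq_zero (Finset.mem_Icc.2 ⟨h1, h2⟩)
  have : (m : ℝ) ≠ 0 := by positivity
  simp [this]

theorem kill_le {s m : ℕ} (h : s < m) : |(kill s).eval (m : ℝ)| ≤ (m : ℝ) ^ s := by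
  rw [kill, eval_prod, Finset.abs_prod]
  calc ∏ j ∈ Finset.Icc 1 s, |(1 - C ((j : ℝ)⁻¹) * X : ℝ[X]).eval (m : ℝ)|
      ≤ ∏ j ∈ Finset.Icc 1 s, (m : ℝ) := by
        apply Finset.prod_le_prod (fun _ _ => abs_nonneg _)
        intro j hj
        rw [Finset.mem_Icc] at hj
        simp only [eval_sub, eval_one, eval_mul, eval_C, eval_X]
        have hj1 : (1 : ℝ) ≤ j := by exact_mod_cast hj.1
        have hjm : (j : ℝ) ≤ m := by exact_mod_cast (hj.2.trans h.le)
        have h1 : 1 ≤ (j : ℝ)⁻¹ * m := by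
          rw [inv_mul_eq_div, le_div_iff₀ (by linarith)]
          linarith
        have h2 : (j : ℝ)⁻¹ * m ≤ m := by
          have : (j : ℝ)⁻¹ ≤ 1 := inv_le_one_of_one_le₀ hj1
          have hm : (0:ℝ) ≤ m := by positivity
          nlinarith
        rw [abs_of_nonpos (by linarith)]
        linarith
    _ = (m : ℝ) ^ s := by simp

theorem kill_natDegree (s : ℕ) : (kill s).natDegree ≤ s := by
  rw [kill]
  refine (natDegree_prod_le _ _).trans ?_
  calc ∑ j ∈ Finset.Icc 1 s, (1 - C ((j : ℝ)⁻¹) * X : ℝ[X]).natDegree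
      ≤ ∑ j ∈ Finset.Icc 1 s, 1 := by
        apply Finset.sum_le_sum
        intro j _
        refine (natDegree_sub_le _ _).trans ?_
        simp only [natDegree_one]
        exact max_le (by simp) ((natDegree_C_mul_le _ _).trans natDegree_X_le)
    _ = s := by simp

/-- The Chebyshev amplifier with its normalisation. -/
noncomputable def amp (K s : ℕ) (R : ℝ) : ℝ[X] :=
  C ((Chebyshev.T ℝ (K : ℤ)).eval (1 + 2 * s / R))⁻¹ *
    (Chebyshev.T ℝ (K : ℤ)).comp (C (1 + 2 * s / R) - C (2 / R) * X)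

theorem exists_poly (N s : ℕ) (b R : ℝ) (hN : 1 ≤ N) (hb : 1 ≤ b) (hbs : b ≤ s) (hsb : s ≤ 2 * b)
    (hsR : (s : ℝ) ≤ R) (hR : 2 ≤ R) :
    ∃ (K : ℕ) (q : ℝ[X]), q.natDegree ≤ K + s ∧ Real.log (2 * N + 2) ≤ K ∧
      (K : ℝ) ≤ 26 * Real.log (2 * N + 2) * √(R * b) ∧ q.eval 0 = 1 ∧
      (∀ m : ℕ, 1 ≤ m → m ≤ N → (m : ℝ) ≤ R → |q.eval (m : ℝ)| ≤ Real.exp (-2 * b - 2)) ∧
      (∀ m : ℕ, m ≤ N → R < m →
        |q.eval (m : ℝ)| ≤ Real.exp (-2 * b - 2) * (8 * m / R) ^ K) := by
  set lam := Real.log (2 * N + 2) with hlam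
  have hR0 : 0 < R := by linarith
  have hN1 : (1 : ℝ) ≤ N := by exact_mod_cast hN
  have hs1 : (1 : ℝ) ≤ s := by linarith
  have hlam1 : 1 ≤ lam := by
    rw [hlam, Real.le_log_iff_exp_le (by linarith)]
    have := Real.exp_one_lt_d9
    linarith
  have hlam2 : 1.2 ≤ lam := by
    rw [hlam, Real.le_log_iff_exp_le (by linarith)]
    have h1 : Real.exp 1.2 = Real.exp 1 * Real.exp 0.2 := by rw [← Real.exp_add]; norm_num
    have h2 := Real.exp_one_lt_d9
    have h3 : Real.exp 0.2 ≤ 1.25 := by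
      have := Real.exp_bound_div_one_sub_of_interval (x := 0.2) (by norm_num) (by norm_num)
      norm_num at this ⊢
      linarith
    rw [h1]
    have := Real.exp_pos 0.2
    nlinarith
  set u : ℝ := 2 * s / R with hu
  have hu0 : 0 ≤ u := by positivity
  have hu2 : u ≤ 2 := by
    rw [hu, div_le_iff₀ hR0]
    linarith
  set K : ℕ := ⌈(lam + 5) * √(s * R / 2)⌉₊ with hK
  have hKlow : (lam + 5) * √(s * R / 2) ≤ K := Nat.le_ceil _
  have hKup : (K : ℝ) ≤ (lam + 5) * √(s * R / 2) + 1 := (Nat.ceil_lt_add_one (by positivity)).le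
  set T0 : ℝ := (Chebyshev.T ℝ (K : ℤ)).eval (1 + u) with hT0
  have hT0low : Real.exp (K * √u) / 2 ≤ T0 := T_lower K hu0 hu2
  have hT0pos : 0 < T0 := lt_of_lt_of_le (by positivity) hT0low
  have hprod : √(s * R / 2) * √u = s := by
    rw [← Real.sqrt_mul (by positivity), hu]
    have : (s : ℝ) * R / 2 * (2 * s / R) = s ^ 2 := by field_simp
    rw [this, Real.sqrt_sq (by positivity)]
  have hexp : s * lam + 2 * b + 3 ≤ K * √u := by
    calc s * lam + 2 * b + 3 ≤ (lam + 5) * s := by nlinarith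
      _ = (lam + 5) * √(s * R / 2) * √u := by rw [mul_assoc, hprod]
      _ ≤ K * √u := mul_le_mul_of_nonneg_right hKlow (Real.sqrt_nonneg _)
  have hTinv : T0⁻¹ ≤ Real.exp (-2 * b - 2) * Real.exp (-(s * lam)) := by
    rw [← Real.exp_add]
    have h1 : Real.exp (s * lam + 2 * b + 2) ≤ T0 := by
      have h2 : Real.exp (s * lam + 2 * b + 2) * 2 ≤ Real.exp (K * √u) := by
        have h3 : Real.exp (s * lam + 2 * b + 2) * Real.exp 1 ≤ Real.exp (K * √u) := by
          rw [← Real.exp_add]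
          apply Real.exp_le_exp.2
          linarith
        have h4 : (2:ℝ) ≤ Real.exp 1 := by have := Real.add_one_le_exp (1:ℝ); linarith
        have h5 := Real.exp_pos (s * lam + 2 * b + 2)
        nlinarith
      linarith
    rw [inv_le_comm₀ hT0pos (Real.exp_pos _), ← Real.exp_neg]
    refine le_trans (le_of_eq ?_) h1
    congr 1
    ring
  have hval : ∀ m : ℕ, (amp K s R * kill s).eval (m : ℝ) =
      T0⁻¹ * (Chebyshev.T ℝ (K : ℤ)).eval (1 + 2 * s / R - 2 / R * m) *
        (kill s).eval (m : ℝ) := by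
    intro m
    simp only [amp, eval_mul, eval_C, eval_comp, eval_sub, eval_X, hT0, hu]
  have hpow : ∀ m : ℕ, 1 ≤ m → m ≤ N → (m : ℝ) ^ s ≤ Real.exp (s * lam) := by
    intro m hm1 hmN
    have hm0 : (0 : ℝ) < m := by exact_mod_cast hm1
    rw [Real.exp_nat_mul, hlam, Real.exp_log (by linarith)]
    apply pow_le_pow_left₀ hm0.le
    have : (m : ℝ) ≤ N := by exact_mod_cast hmN
    linarith
  refine ⟨K, amp K s R * kill s, ?_, ?_, ?_, ?_, ?_, ?_⟩
  · refine natDegree_mul_le.trans ?_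
    refine Nat.add_le_add ?_ (kill_natDegree s)
    rw [amp]
    refine (natDegree_C_mul_le _ _).trans ?_
    refine natDegree_comp_le.trans ?_
    rw [Chebyshev.natDegree_T]
    have h1 : (C (1 + 2 * (s:ℝ) / R) - C (2 / R) * X : ℝ[X]).natDegree ≤ 1 := by
      refine (natDegree_sub_le _ _).trans ?_
      simp only [natDegree_C]
      exact max_le (by simp) ((natDegree_C_mul_le _ _).trans natDegree_X_le)
    calc _ ≤ Int.natAbs (K : ℤ) * 1 := Nat.mul_le_mul_left _ h1
      _ = K := by simp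
  · have h1 : 1 ≤ √(s * R / 2) := by
      rw [Real.one_le_sqrt]
      nlinarith
    nlinarith
  · have h1 : √(s * R / 2) ≤ √(R * b) := by
      apply Real.sqrt_le_sqrt
      nlinarith
    have h2 : 1 ≤ √(R * b) := by
      rw [Real.one_le_sqrt]
      nlinarith
    nlinarith
  · rw [eval_mul, kill_zero, mul_one, amp]
    simp only [eval_mul, eval_C, eval_comp, eval_sub, eval_X, mul_zero, sub_zero]
    exact inv_mul_cancel₀ hT0pos.ne'
  · intro m hm1 hmN hmR
    rw [hval m, abs_mul, abs_mul, abs_of_pos (inv_pos.2 hT0pos)]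
    rcases le_or_gt m s with h | h
    · rw [kill_eq_zero hm1 h, abs_zero, mul_zero]
      exact (Real.exp_pos _).le
    · have hsm : (s : ℝ) < m := by exact_mod_cast h
      have h1 : |(Chebyshev.T ℝ (K : ℤ)).eval (1 + 2 * s / R - 2 / R * m)| ≤ 1 := by
        apply Chebyshev.abs_eval_T_real_le_one
        have e : 1 + 2 * s / R - 2 / R * m = 1 - 2 * (m - s) / R := by ring
        rw [e, abs_le]
        have h2 : 2 * (m - s) / R ≤ 2 := by
          rw [div_le_iff₀ hR0]
          linarith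
        have h3 : 0 ≤ 2 * (m - s) / R := div_nonneg (by linarith) hR0.le
        constructor <;> linarith
      have h2 := (kill_le h).trans (hpow m (by omega) hmN)
      calc T0⁻¹ * |(Chebyshev.T ℝ (K : ℤ)).eval (1 + 2 * s / R - 2 / R * m)| *
            |(kill s).eval (m : ℝ)|
          ≤ (Real.exp (-2 * b - 2) * Real.exp (-(s * lam))) * 1 * Real.exp (s * lam) := by
            gcongr
        _ = Real.exp (-2 * b - 2) := by
            rw [mul_one, mul_assoc, ← Real.exp_add]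
            simp
  · intro m hmN hmR
    rw [hval m, abs_mul, abs_mul, abs_of_pos (inv_pos.2 hT0pos)]
    have hsm : s < m := by
      have : (s : ℝ) < m := lt_of_le_of_lt hsR hmR
      exact_mod_cast this
    have hsm' : (s : ℝ) < m := by exact_mod_cast hsm
    have hw : 1 ≤ 4 * m / R := by
      rw [le_div_iff₀ hR0]
      linarith
    have h1 : |(Chebyshev.T ℝ (K : ℤ)).eval (1 + 2 * s / R - 2 / R * m)| ≤
        (2 * (4 * m / R)) ^ K := by
      apply T_upper K hw
      have e : 1 + 2 * s / R - 2 / R * m = 1 - 2 * (m - s) / R := by ring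
      rw [e, abs_le]
      have h3 : 0 ≤ 2 * (m - s) / R := div_nonneg (by linarith) hR0.le
      have h4 : 2 * (m - s) / R ≤ 4 * m / R := by
        apply div_le_div_of_nonneg_right _ hR0.le
        linarith
      constructor <;> linarith
    have h2 := (kill_le hsm).trans (hpow m (by omega) hmN)
    have e8 : 2 * (4 * m / R) = 8 * m / R := by ring
    rw [e8] at h1
    calc T0⁻¹ * |(Chebyshev.T ℝ (K : ℤ)).eval (1 + 2 * s / R - 2 / R * m)| *
          |(kill s).eval (m : ℝ)|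
        ≤ (Real.exp (-2 * b - 2) * Real.exp (-(s * lam))) * (8 * m / R) ^ K *
          Real.exp (s * lam) := by
          gcongr
      _ = Real.exp (-2 * b - 2) * (8 * m / R) ^ K * (Real.exp (-(s * lam)) *
          Real.exp (s * lam)) := by ring
      _ = Real.exp (-2 * b - 2) * (8 * m / R) ^ K := by
          rw [← Real.exp_add]
          simp

end P368.Moore
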