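import Mathlib
import Vale.Agent.P368M.Cheb

/-! Module POLY (real analysis, only Mathlib): a polynomial which is `1` at `0`, tiny at the
integers `1..R` and grows slowly afterwards.  Uses the Chebyshev bounds `T_lower`, `T_upper`
and the product `kill` of `Cheb.lean` (helper24). -/

namespace P368M

open Polynomial P368.Moore

theorem exists_poly (N : ℕ) (lm b R : ℝ) (hlm : 1 ≤ lm) (hN : (N : ℝ) ≤ Real.exp lm)
    (hb : 1 ≤ b) (hR : 4 * b ≤ R) :
    ∃ (K ρ : ℕ) (q : ℝ[X]), (K : ℝ) ≤ 26 * lm * √(R * b) ∧ lm ≤ K ∧ (ρ : ℝ) ≤ K + 2 * b ∧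
      q.natDegree ≤ ρ ∧ q.eval 0 = 1 ∧
      (∀ m : ℕ, 1 ≤ m → m ≤ N → (m : ℝ) ≤ R → |q.eval (m : ℝ)| ≤ Real.exp (-(2 * b + 2))) ∧
      (∀ m : ℕ, m ≤ N → R < m →
        |q.eval (m : ℝ)| ≤ Real.exp (-(2 * b + 2)) * (8 * m / R) ^ K) := by
  have hR0 : 0 < R := by linarith
  set s : ℕ := ⌈b⌉₊ with hs
  have hbs : b ≤ s := Nat.le_ceil _
  have hsb' : (s : ℝ) ≤ b + 1 := (Nat.ceil_lt_add_one (by linarith)).le
  have hsb : (s : ℝ) ≤ 2 * b := by linarith
  have hsR : (s : ℝ) ≤ R := by linarith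
  have hs1 : (1 : ℝ) ≤ s := by linarith
  set u : ℝ := 2 * s / R with hu
  have hu0 : 0 ≤ u := by positivity
  have hu2 : u ≤ 2 := by
    rw [hu, div_le_iff₀ hR0]
    linarith
  set K : ℕ := ⌈(lm + 5) * √(s * R / 2)⌉₊ with hK
  have hKlow : (lm + 5) * √(s * R / 2) ≤ K := Nat.le_ceil _
  have hKup : (K : ℝ) ≤ (lm + 5) * √(s * R / 2) + 1 := (Nat.ceil_lt_add_one (by positivity)).le
  set T0 : ℝ := (Chebyshev.T ℝ (K : ℤ)).eval (1 + u) with hT0
  have hT0low : Real.exp (K * √u) / 2 ≤ T0 := T_lower K hu0 hu2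
  have hT0pos : 0 < T0 := lt_of_lt_of_le (by positivity) hT0low
  have hprod : √(s * R / 2) * √u = s := by
    rw [← Real.sqrt_mul (by positivity), hu]
    have : (s : ℝ) * R / 2 * (2 * s / R) = s ^ 2 := by field_simp
    rw [this, Real.sqrt_sq (by positivity)]
  have hexp : s * lm + 2 * b + 3 ≤ K * √u := by
    calc s * lm + 2 * b + 3 ≤ (lm + 5) * s := by nlinarith
      _ = (lm + 5) * √(s * R / 2) * √u := by rw [mul_assoc, hprod]
      _ ≤ K * √u := mul_le_mul_of_nonneg_right hKlow (Real.sqrt_nonneg _)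
  have hTinv : T0⁻¹ ≤ Real.exp (-(2 * b + 2)) * Real.exp (-(s * lm)) := by
    rw [← Real.exp_add]
    have h1 : Real.exp (s * lm + 2 * b + 2) ≤ T0 := by
      have h2 : Real.exp (s * lm + 2 * b + 2) * 2 ≤ Real.exp (K * √u) := by
        have h3 : Real.exp (s * lm + 2 * b + 2) * Real.exp 1 ≤ Real.exp (K * √u) := by
          rw [← Real.exp_add]
          apply Real.exp_le_exp.2
          linarith
        have h4 : (2:ℝ) ≤ Real.exp 1 := by have := Real.add_one_le_exp (1:ℝ); linarith
        have h5 := Real.exp_pos (s * lm + 2 * b + 2)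
        nlinarith
      linarith
    rw [inv_le_comm₀ hT0pos (Real.exp_pos _), ← Real.exp_neg]
    refine le_trans (le_of_eq ?_) h1
    congr 1
    ring
  have hval : ∀ m : ℕ, (amp K s R * kill s).eval (m : ℝ) =
      T0⁻¹ * (Chebyshev.T ℝ (K : ℤ)).eval (1 + 2 * s / R - 2 / R * m) *
        (kill s).eval (m : ℝ) := by
    intro m
    simp only [amp, eval_mul, eval_C, eval_comp, eval_sub, eval_X, hT0, hu]
  have hpow : ∀ m : ℕ, 1 ≤ m → m ≤ N → (m : ℝ) ^ s ≤ Real.exp (s * lm) := by
    intro m hm1 hmN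
    have hm0 : (0 : ℝ) < m := by exact_mod_cast hm1
    rw [Real.exp_nat_mul]
    apply pow_le_pow_left₀ hm0.le
    have : (m : ℝ) ≤ N := by exact_mod_cast hmN
    linarith
  refine ⟨K, K + s, amp K s R * kill s, ?_, ?_, ?_, ?_, ?_, ?_, ?_⟩
  · have h1 : √(s * R / 2) ≤ √(R * b) := by
      apply Real.sqrt_le_sqrt
      nlinarith
    have h2 : 1 ≤ √(R * b) := by
      rw [Real.one_le_sqrt]
      nlinarith
    have h3 : (lm + 5) * √(s * R / 2) ≤ (6 * lm) * √(R * b) := by
      apply mul_le_mul _ h1 (Real.sqrt_nonneg _) (by linarith)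
      linarith
    nlinarith
  · have h1 : 1 ≤ √(s * R / 2) := by
      rw [Real.one_le_sqrt]
      nlinarith
    nlinarith
  · push_cast
    linarith
  · refine natDegree_mul_le.trans ?_
    refine Nat.add_le_add ?_ (kill_natDegree s)
    rw [amp]
    refine (natDegree_C_mul_le _ _).trans ?_
    refine natDegree_comp_le.trans ?_
    rw [Chebyshev.natDegree_T]
    have h1 : (C (1 + 2 * (s:ℝ) / R) - C (2 / R) * X : ℝ[X]).natDegree ≤ 1 := by
      refine (natDegree_sub_le _ _).trans ?_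
      simp only [natDegree_C]
      exact max_le (by simp) ((natDegree_C_mul_le _ _).trans natDegree_X_le)
    calc _ ≤ Int.natAbs (K : ℤ) * 1 := Nat.mul_le_mul_left _ h1
      _ = K := by simp
  · rw [eval_mul, kill_zero, mul_one, amp]
    simp only [eval_mul, eval_C, eval_comp, eval_sub, eval_X, mul_zero, sub_zero]
    exact inv_mul_cancel₀ hT0pos.ne'
  · intro m hm1 hmN hmR
    rw [hval m, abs_mul, abs_mul, abs_of_pos (inv_pos.2 hT0pos)]
    rcases le_or_gt m s with h | h
    · rw [kill_eq_zero hm1 h, abs_zero, mul_zero]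
      exact (Real.exp_pos _).le
    · have hsm : (s : ℝ) < m := by exact_mod_cast h
      have h1 : |(Chebyshev.T ℝ (K : ℤ)).eval (1 + 2 * s / R - 2 / R * m)| ≤ 1 := by
        apply Chebyshev.abs_eval_T_real_le_one
        have e : 1 + 2 * s / R - 2 / R * m = 1 - 2 * (m - s) / R := by ring
        rw [e, abs_le]
        have h2 : 2 * (m - s) / R ≤ 2 := by
          rw [div_le_iff₀ hR0]
          linarith
        have h3 : 0 ≤ 2 * (m - s) / R := div_nonneg (by linarith) hR0.le
        constructor <;> linarith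
      have h2 := (kill_le h).trans (hpow m (by omega) hmN)
      calc T0⁻¹ * |(Chebyshev.T ℝ (K : ℤ)).eval (1 + 2 * s / R - 2 / R * m)| *
            |(kill s).eval (m : ℝ)|
          ≤ (Real.exp (-(2 * b + 2)) * Real.exp (-(s * lm))) * 1 * Real.exp (s * lm) := by
            gcongr
        _ = Real.exp (-(2 * b + 2)) := by
            rw [mul_one, mul_assoc, ← Real.exp_add]
            simp
  · intro m hmN hmR
    rw [hval m, abs_mul, abs_mul, abs_of_pos (inv_pos.2 hT0pos)]
    have hsm : s < m := by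
      have : (s : ℝ) < m := lt_of_le_of_lt hsR hmR
      exact_mod_cast this
    have hsm' : (s : ℝ) < m := by exact_mod_cast hsm
    have hw : 1 ≤ 4 * m / R := by
      rw [le_div_iff₀ hR0]
      linarith
    have h1 : |(Chebyshev.T ℝ (K : ℤ)).eval (1 + 2 * s / R - 2 / R * m)| ≤
        (2 * (4 * m / R)) ^ K := by
      apply T_upper K hw
      have e : 1 + 2 * s / R - 2 / R * m = 1 - 2 * (m - s) / R := by ring
      rw [e, abs_le]
      have h3 : 0 ≤ 2 * (m - s) / R := div_nonneg (by linarith) hR0.le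
      have h4 : 2 * (m - s) / R ≤ 4 * m / R := by
        apply div_le_div_of_nonneg_right _ hR0.le
        linarith
      constructor <;> linarith
    have h2 := (kill_le hsm).trans (hpow m (by omega) hmN)
    have e8 : 2 * (4 * m / R) = 8 * m / R := by ring
    rw [e8] at h1
    calc T0⁻¹ * |(Chebyshev.T ℝ (K : ℤ)).eval (1 + 2 * s / R - 2 / R * m)| *
          |(kill s).eval (m : ℝ)|
        ≤ (Real.exp (-(2 * b + 2)) * Real.exp (-(s * lm))) * (8 * m / R) ^ K *
          Real.exp (s * lm) := by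
          gcongr
      _ = Real.exp (-(2 * b + 2)) * (8 * m / R) ^ K * (Real.exp (-(s * lm)) *
          Real.exp (s * lm)) := by ring
      _ = Real.exp (-(2 * b + 2)) * (8 * m / R) ^ K := by
          rw [← Real.exp_add]
          simp

end P368M
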