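import Vale.Agent.P368M.Circuits

/-! Module SUPP: operators supported on a set of qubits, and the spreading bound at depth 0.

`apply_eq_zero`: take `W i = 1` for `i ∈ T` and `W i` = the projection on the value `y i` for
`i ∉ T`; then `(w * tens W) x y = w x y`, `(tens W * w) x y = (∏ i ∉ T, [x i = y i]) * w x y`. -/

namespace P368M

open scoped Matrix.Norms.L2Operator

variable {V : Type} [Fintype V] [DecidableEq V]

theorem SuppIn.conj {T : Finset V} {w : Op V} (h : SuppIn T w) {W : V → Matrix Bool Bool ℂ}
    (hW : Uni W) : SuppIn T (tens W * w * star (tens W)) := by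
  intro W' hW'
  have hs : ∀ i, star (W i) * W i = 1 := fun i => (Matrix.mem_unitaryGroup_iff').1 (hW i)
  have hs' : ∀ i, W i * star (W i) = 1 := fun i => (Matrix.mem_unitaryGroup_iff).1 (hW i)
  have h1 : star (tens W) * tens W' = tens (fun i => star (W i) * W' i * W i) * star (tens W) := by
    rw [star_tens, tens_mul, tens_mul]
    congr 1
    funext i
    rw [mul_assoc (star (W i) * W' i), hs', mul_one]
  have h2 : tens W * tens (fun i => star (W i) * W' i * W i) = tens W' * tens W := by
    rw [tens_mul, tens_mul]
    congr 1
    funext i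
    rw [← mul_assoc, ← mul_assoc, hs', one_mul]
  have h3 := h (fun i => star (W i) * W' i * W i) (by
    intro i hi
    show star (W i) * W' i * W i = 1
    rw [hW' i hi, mul_one, hs])
  calc tens W * w * star (tens W) * tens W' = tens W * w * (star (tens W) * tens W') := by
        rw [mul_assoc]
    _ = tens W * (w * tens (fun i => star (W i) * W' i * W i)) * star (tens W) := by
        rw [h1]; simp only [mul_assoc]
    _ = tens W * tens (fun i => star (W i) * W' i * W i) * w * star (tens W) := by
        rw [h3]; simp only [mul_assoc]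
    _ = tens W' * (tens W * w * star (tens W)) := by
        rw [h2]; simp only [mul_assoc]

theorem SuppIn.qf (T : Finset V) : SuppIn T (qf T) := by
  intro W hW
  rw [qf_eq_tens, tens_mul, tens_mul]
  congr 1
  funext i
  by_cases hi : i ∈ T
  · rw [hW i hi, mul_one, one_mul]
  · rw [if_neg hi, one_mul, mul_one]

/-- a function of the bit `o` -/
theorem SuppIn.bit (o : V) (f : Bool → ℂ) :
    SuppIn {o} (Matrix.diagonal fun x : V → Bool => f (x o)) := by
  intro W hW
  have ho : W o = 1 := hW o (Finset.mem_singleton_self o)
  ext x y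
  rw [Matrix.diagonal_mul, Matrix.mul_diagonal]
  by_cases hxy : x o = y o
  · rw [hxy, mul_comm]
  · have h0 : tens W x y = 0 := by
      unfold tens
      refine Finset.prod_eq_zero (Finset.mem_univ o) ?_
      rw [ho, Matrix.one_apply_ne hxy]
    rw [h0, mul_zero, zero_mul]

theorem SuppIn.apply_eq_zero {T : Finset V} {w : Op V} (h : SuppIn T w) {x y : V → Bool}
    (hxy : ∃ i, i ∉ T ∧ x i ≠ y i) : w x y = 0 := by
  obtain ⟨i, hi, hne⟩ := hxy
  obtain ⟨W, hWdef⟩ : ∃ W : V → Matrix Bool Bool ℂ, W = fun j =>
    if j ∈ T then (1 : Matrix Bool Bool ℂ) else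
      Matrix.of fun a b => if a = y j ∧ b = y j then 1 else 0 := ⟨_, rfl⟩
  have hW1 : ∀ j ∈ T, W j = 1 := by
    intro j hj
    rw [hWdef]
    exact if_pos hj
  have hW2 : ∀ j, j ∉ T → ∀ a b, W j a b = if a = y j ∧ b = y j then 1 else 0 := by
    intro j hj a b
    rw [hWdef]
    simp only [if_neg hj, Matrix.of_apply]
  have h1 := congrFun (congrFun (h W hW1) x) y
  rw [Matrix.mul_apply, Matrix.mul_apply] at h1
  have h2 : ∑ z, w x z * tens W z y = w x y := by
    rw [Finset.sum_eq_single y]
    · have : tens W y y = 1 := by
        unfold tens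
        refine Finset.prod_eq_one fun j _ => ?_
        by_cases hj : j ∈ T
        · rw [hW1 j hj, Matrix.one_apply_eq]
        · rw [hW2 j hj, if_pos ⟨rfl, rfl⟩]
      rw [this, mul_one]
    · intro z _ hz
      have : tens W z y = 0 := by
        obtain ⟨j, hj⟩ := Function.ne_iff.1 hz
        unfold tens
        refine Finset.prod_eq_zero (Finset.mem_univ j) ?_
        by_cases hjT : j ∈ T
        · rw [hW1 j hjT, Matrix.one_apply_ne hj]
        · rw [hW2 j hjT, if_neg (fun hh => hj hh.1)]
      rw [this, mul_zero]
    · intro hy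
      exact absurd (Finset.mem_univ y) hy
  have h3 : ∑ z, tens W x z * w z y = 0 := by
    refine Finset.sum_eq_zero fun z _ => ?_
    have : tens W x z = 0 := by
      unfold tens
      refine Finset.prod_eq_zero (Finset.mem_univ i) ?_
      rw [hW2 i hi, if_neg (fun hh => hne hh.1)]
    rw [this, zero_mul]
  rw [h2, h3] at h1
  exact h1

theorem SuppIn.cut {T : Finset V} {w : Op V} (h : SuppIn T w) (S : Finset V) {m x : ℕ}
    (hx : m + T.card < x) : ge S x * w * le S m = 0 := by
  ext a b
  unfold ge le
  rw [Matrix.mul_diagonal, Matrix.diagonal_mul, Matrix.zero_apply]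
  by_cases hab : ∃ i, i ∉ T ∧ a i ≠ b i
  · rw [h.apply_eq_zero hab, mul_zero, zero_mul]
  · push Not at hab
    split_ifs with h1 h2
    · exfalso
      have h3 : cnt S a ≤ cnt S b + T.card := by
        unfold cnt
        calc (S.filter (fun i => a i = false)).card
            ≤ ((S.filter (fun i => b i = false)) ∪ T).card := by
              refine Finset.card_le_card ?_
              intro i hi
              rw [Finset.mem_filter] at hi
              rw [Finset.mem_union, Finset.mem_filter]
              by_cases hiT : i ∈ T
              · exact Or.inr hiT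
              · exact Or.inl ⟨hi.1, (hab i hiT) ▸ hi.2⟩
          _ ≤ _ := Finset.card_union_le _ _
      omega
    · rw [mul_zero]
    · rw [zero_mul, zero_mul]
    · rw [zero_mul, zero_mul]

theorem spread_zero : Spread V 0 1 := by
  intro U hU S T w hw hnw m x B hB hx
  cases hU with
  | zero W hW =>
    have h1 : m + T.card < x := by
      have h2 : ((m + T.card : ℕ) : ℝ) < (x : ℝ) := by
        push_cast
        linarith
      exact_mod_cast h2
    rw [(hw.conj hW).cut S h1, norm_zero]
    exact (Real.exp_pos _).le

end P368M
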