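import Vale.Agent.P368M.BootA
import Vale.Agent.P368M.Newton
import Vale.Agent.P368M.Poly
import Vale.Agent.P368M.GenM
import Vale.Agent.P368M.Supp

/-! Modules BOOT, ITER: the bootstrap step and its iteration.  `N = Fintype.card V`,
`D = dd V L = (208 L lam²)²`.

`boot_step`: given `b ≥ 1`, `y` with `(12D)^(i+1) A N b^(i+1) ≤ y^(i+2)`.
If `y > N`: `ge_eq_zero`.  Otherwise `y ≤ N` gives `y ≥ 12 D b` (divide by `y`; `A ≥ 1`).
Put `R = y²/(D b) ≥ 2y ≥ 4b` and take `K ρ q` from `exists_poly N (lam V) b R`: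
`K ≤ 26 lam √(R b) = 26 lam y/√D = y/(8 L lam)`, `ρ ≤ K + 2b ≤ y ≤ R`.
`TailB` for `U`: use `boot_core` for `U' = star U` (`Circ.adj`, `star_star`), so with
`P = star U * pr S * U`.  Three terms, each `≤ exp (-(2b+2))`:
 (1) `norm_expand` with `A = ge S y * U`, `B = star U * pr S` (`pr S = le S 0`),
   `ε = exp (-Bb)`, `Bb = lam*ρ + 2b + 2`: `Spread` for `U`, `T`, `w = qf T` as
   `L (0 + |T| + Bb) ≤ L (2 lam ρ + 4b) ≤ y`; and `(2N+1)^ρ ≤ exp (lam*ρ)`.
 (2) `e = exp (-(2b+2))`.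
 (3) for `m > R`, `m ≤ N` the hypothesis `TI V t i A` for `star U` with `b' = 6 K m / R ≥ 1` and `x = m`
   (`A N (6Km/R)^i ≤ m^(i+1)` since `m > R`, `A N (6K)^i ≤ R^(i+1)`, `6K ≤ y`); then
   `(8m/R)^K exp (-6Km/R) ≤ exp (-3K) ≤ 1/(N+1)...` since `8u exp(-6u) ≤ exp(-3)` for `u ≥ 1`
   and `K ≥ lam`; there are at most `N` terms (`m ≥ 1`) and `N exp (-K) ≤ 1`.
`3 exp (-(2b+2)) ≤ exp (-2b) = exp (-b)^2`. -/

namespace P368M

open scoped Matrix.Norms.L2Operator

variable (V : Type) [Fintype V] [DecidableEq V]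

/-- the intermediate tail bounds -/
def TI (t i : ℕ) (A : ℝ) : Prop :=
  ∀ (b : ℝ) (x : ℕ), 1 ≤ b → A * Fintype.card V * b ^ i ≤ (x : ℝ) ^ (i + 1) → TailB V t b x

/-- the loss per bootstrap step -/
noncomputable def dd (L : ℝ) : ℝ := (208 * L * lam V ^ 2) ^ 2

variable {V}

theorem TI_zero [Nonempty V] (t : ℕ) : TI V t 0 2 := by
  intro b x _ hx U _ S S'
  have hN : 0 < Fintype.card V := Fintype.card_pos
  have h1 : (2 : ℝ) * Fintype.card V ≤ x := by
    simpa using hx
  have h2 : 2 * Fintype.card V ≤ x := by exact_mod_cast h1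
  rw [ge_eq_zero S x (by omega), zero_mul, zero_mul, norm_zero]
  exact (Real.exp_pos _).le

/-- `8 u exp (-6u) ≤ exp (-3)` for `u ≥ 1` -/
private theorem boot_u {u : ℝ} (hu : 1 ≤ u) : 8 * u * Real.exp (-(6 * u)) ≤ Real.exp (-3) := by
  have h1 := Real.quadratic_le_exp_of_nonneg (x := 6 * u - 3) (by linarith)
  have h2 : 8 * u ≤ Real.exp (6 * u - 3) := by nlinarith
  calc 8 * u * Real.exp (-(6 * u)) ≤ Real.exp (6 * u - 3) * Real.exp (-(6 * u)) :=
        mul_le_mul_of_nonneg_right h2 (Real.exp_pos _).le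
    _ = Real.exp (-3) := by rw [← Real.exp_add]; congr 1; ring

omit [DecidableEq V] in
private theorem boot_exp_lam : Real.exp (lam V) = 2 * Fintype.card V + 2 := by
  unfold lam
  exact Real.exp_log (by positivity)

/-- the numerics of the bootstrap step -/
private theorem boot_num {l L A b N y D E : ℝ} {i : ℕ} (hl1 : 1 ≤ l) (hL : 1 ≤ L) (hA : 1 ≤ A)
    (hb : 1 ≤ b) (hN1 : 1 ≤ N) (hyN : y ≤ N) (hE : E = 208 * L * l ^ 2) (hD : D = E ^ 2)
    (hy00 : 0 ≤ y)
    (hy : (12 * D) ^ (i + 1) * A * N * b ^ (i + 1) ≤ y ^ (i + 1 + 1)) :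
    0 < y ∧ 12 * D * b ≤ y ∧ 208 * (L * l) ≤ E ∧ E ≤ D := by
  have hl2 : l ≤ l ^ 2 := by nlinarith
  have hLl : L * l ≤ L * l ^ 2 := mul_le_mul_of_nonneg_left hl2 (by linarith)
  have hLl1 : 1 ≤ L * l := by nlinarith
  have hE208 : 208 * (L * l) ≤ E := by rw [hE]; linarith
  have hE1 : 208 ≤ E := by linarith
  have hDE : E ≤ D := by rw [hD]; nlinarith
  have hD1 : 1 ≤ D := by linarith
  have hb0 : 0 < b := by linarith
  have hc : 0 < (12 * D) ^ (i + 1) * A * N * b ^ (i + 1) := by positivity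
  have hy0 : (0 : ℝ) < y := by
    rcases hy00.lt_or_eq with h0 | h0
    · exact h0
    · rw [← h0, zero_pow (by omega)] at hy
      exact absurd (lt_of_lt_of_le hc hy) (lt_irrefl _)
  refine ⟨hy0, ?_, hE208, hDE⟩
  have h1 : (12 * D * b) ^ (i + 1) * y ≤ (y : ℝ) ^ (i + 1) * y := by
    calc (12 * D * b) ^ (i + 1) * y ≤ (12 * D * b) ^ (i + 1) * (A * N) := by
          refine mul_le_mul_of_nonneg_left ?_ (by positivity)
          nlinarith
      _ = (12 * D) ^ (i + 1) * A * N * b ^ (i + 1) := by rw [mul_pow]; ring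
      _ ≤ (y : ℝ) ^ (i + 1 + 1) := hy
      _ = (y : ℝ) ^ (i + 1) * y := pow_succ _ _
  have h2 : (12 * D * b) ^ (i + 1) ≤ (y : ℝ) ^ (i + 1) := le_of_mul_le_mul_right h1 hy0
  exact le_of_pow_le_pow_left₀ (by omega) hy0.le h2

/-- the hypothesis on `x = m > R` -/
private theorem boot_num2 {A b N y D R u : ℝ} {i K : ℕ} (hA : 1 ≤ A) (hb : 1 ≤ b) (hN1 : 1 ≤ N)
    (hD : 1 ≤ D) (hR : R = y ^ 2 / (D * b)) (hR0 : 0 < R) (hu1 : 1 ≤ u) (hy0 : 0 < y)
    (hK8 : 8 * K ≤ y)
    (hy : (12 * D) ^ (i + 1) * A * N * b ^ (i + 1) ≤ y ^ (i + 1 + 1)) :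
    A * N * (6 * u * K) ^ i ≤ (R * u) ^ (i + 1) := by
  have hb0 : 0 < b := by linarith
  have hD0 : 0 < D := by linarith
  have hK0 : (0 : ℝ) ≤ K := Nat.cast_nonneg _
  have h4 : A * N * y ^ i ≤ R ^ (i + 1) := by
    rw [hR, div_pow, le_div_iff₀ (by positivity)]
    have h5 : A * N * y ^ i * (D * b) ^ (i + 1) ≤
        y ^ i * ((12 * D) ^ (i + 1) * A * N * b ^ (i + 1)) := by
      have h6 : D ^ (i + 1) ≤ (12 * D) ^ (i + 1) :=
        pow_le_pow_left₀ (by linarith) (by linarith) _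
      calc A * N * y ^ i * (D * b) ^ (i + 1)
          = (A * N * y ^ i * b ^ (i + 1)) * D ^ (i + 1) := by rw [mul_pow]; ring
        _ ≤ (A * N * y ^ i * b ^ (i + 1)) * (12 * D) ^ (i + 1) :=
            mul_le_mul_of_nonneg_left h6 (by positivity)
        _ = _ := by ring
    refine h5.trans ?_
    calc (y : ℝ) ^ i * ((12 * D) ^ (i + 1) * A * N * b ^ (i + 1))
        ≤ (y : ℝ) ^ i * (y : ℝ) ^ (i + 1 + 1) :=
          mul_le_mul_of_nonneg_left hy (by positivity)
      _ = ((y : ℝ) ^ 2) ^ (i + 1) := by rw [← pow_mul, ← pow_add]; congr 1; ring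
  have h7 : (6 * u * K) ^ i ≤ u ^ i * y ^ i := by
    rw [← mul_pow]
    refine pow_le_pow_left₀ (by positivity) ?_ _
    have : u * (8 * K) ≤ u * y := mul_le_mul_of_nonneg_left hK8 (by linarith)
    have h0 : 0 ≤ u * K := by positivity
    linarith
  calc A * N * (6 * u * K) ^ i ≤ A * N * (u ^ i * y ^ i) :=
        mul_le_mul_of_nonneg_left h7 (by positivity)
    _ = (A * N * y ^ i) * u ^ i := by ring
    _ ≤ R ^ (i + 1) * u ^ i := mul_le_mul_of_nonneg_right h4 (by positivity)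
    _ ≤ R ^ (i + 1) * u ^ (i + 1) := by
        refine mul_le_mul_of_nonneg_left ?_ (by positivity)
        exact pow_le_pow_right₀ hu1 (Nat.le_succ i)
    _ = (R * u) ^ (i + 1) := (mul_pow _ _ _).symm

/-- the first term -/
private theorem boot_term1 [Nonempty V] {t : ℕ} {L b : ℝ} (hL : 1 ≤ L) (hb : 1 ≤ b)
    (hS : Spread V t L) {U : Op V} (hU : Circ t U) (S S' : Finset V) (y ρ K : ℕ)
    (q : Polynomial ℝ) (hqd : q.natDegree ≤ ρ)
    (hq1 : ∀ m : ℕ, m ≤ ρ → m ≤ Fintype.card V → |q.eval (m : ℝ)| ≤ 1)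
    (hρ : (ρ : ℝ) ≤ K + 2 * b) (hKy : 8 * (L * lam V) * K ≤ y)
    (hby : 32 * (L * lam V) * b ≤ y) :
    ‖ge S y * (U * (Matrix.diagonal fun x : V → Bool =>
      ((q.eval (cnt S' x : ℝ) : ℝ) : ℂ)) * star U) * pr S‖ ≤ Real.exp (-(2 * b + 2)) := by
  have hl1 : 1 ≤ lam V := lam_pos
  have hel := boot_exp_lam (V := V)
  generalize lam V = l at *
  have hρ0 : (0 : ℝ) ≤ ρ := Nat.cast_nonneg _
  have hl0 : 0 ≤ l := by linarith
  have hlρ : l * ρ ≤ l * K + 2 * (b * l) := by
    have := mul_le_mul_of_nonneg_left hρ hl0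
    linarith
  have hlρ0 : 0 ≤ l * ρ := mul_nonneg hl0 hρ0
  have hρl : (ρ : ℝ) ≤ l * ρ := by
    have := mul_le_mul_of_nonneg_right hl1 hρ0
    linarith
  have hbl : b ≤ b * l := by
    have := mul_le_mul_of_nonneg_left hl1 (by linarith : (0 : ℝ) ≤ b)
    linarith
  have h1 := norm_expand (ge S y * U) (star U * pr S) (Real.exp (-(l * ρ + 2 * b + 2)))
    (Real.exp_pos _).le q ρ hqd hq1 (by
      intro T hT
      have hT' : (T.card : ℝ) ≤ ρ := by exact_mod_cast hT
      have h3 : ((0 : ℕ) : ℝ) + T.card + (l * ρ + 2 * b + 2) ≤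
          2 * (l * K) + 8 * (b * l) := by
        push_cast
        linarith
      have h4 : L * (2 * (l * K) + 8 * (b * l)) ≤ y := by
        have h5 : L * (2 * (l * K) + 8 * (b * l)) =
          (8 * (L * l) * K) / 4 + (32 * (L * l) * b) / 4 := by ring
        rw [h5]
        have : 0 ≤ (y : ℝ) := Nat.cast_nonneg _
        linarith
      have h2 := hS U hU S T (qf T) (SuppIn.qf T) (norm_qf_le T) 0 y (l * ρ + 2 * b + 2)
        (by linarith) ((mul_le_mul_of_nonneg_left h3 (by linarith)).trans h4)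
      rw [le_zero] at h2
      calc ‖ge S y * U * qf T * (star U * pr S)‖
          = ‖ge S y * (U * qf T * star U) * pr S‖ := by
            congr 1
            simp only [mul_assoc]
        _ ≤ _ := h2) S'
  calc ‖ge S y * (U * (Matrix.diagonal fun x : V → Bool =>
          ((q.eval (cnt S' x : ℝ) : ℝ) : ℂ)) * star U) * pr S‖
      = ‖ge S y * U * (Matrix.diagonal fun x : V → Bool =>
          ((q.eval (cnt S' x : ℝ) : ℝ) : ℂ)) * (star U * pr S)‖ := by
        congr 1
        simp only [mul_assoc]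
    _ ≤ (2 * Fintype.card V + 1) ^ ρ * Real.exp (-(l * ρ + 2 * b + 2)) := h1
    _ ≤ Real.exp l ^ ρ * Real.exp (-(l * ρ + 2 * b + 2)) := by
        refine mul_le_mul_of_nonneg_right ?_ (Real.exp_pos _).le
        refine pow_le_pow_left₀ (by positivity) ?_ _
        rw [hel]
        linarith
    _ = Real.exp (-(2 * b + 2)) := by
        rw [← Real.exp_nat_mul, ← Real.exp_add]
        congr 1
        ring

/-- one summand of the third term -/
private theorem boot_term3 {e l u : ℝ} {K : ℕ} {a c : ℝ} (he0 : 0 ≤ e)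
    (hlK : l ≤ K) (hu1 : 1 ≤ u) (h1 : a ≤ e * (8 * u) ^ K)
    (h2 : c ≤ Real.exp (-(6 * u * K))) (hc : 0 ≤ c) : a * c ≤ e * Real.exp (-l) := by
  calc a * c ≤ (e * (8 * u) ^ K) * Real.exp (-(6 * u * K)) :=
        mul_le_mul h1 h2 hc (by positivity)
    _ = e * (8 * u * Real.exp (-(6 * u))) ^ K := by
        rw [mul_pow (8 * u) (Real.exp (-(6 * u))) K, ← Real.exp_nat_mul, mul_assoc]
        congr 3
        ring
    _ ≤ e * Real.exp (-3) ^ K := by
        refine mul_le_mul_of_nonneg_left ?_ he0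
        exact pow_le_pow_left₀ (by positivity) (boot_u hu1) _
    _ ≤ e * Real.exp (-l) := by
        refine mul_le_mul_of_nonneg_left ?_ he0
        rw [← Real.exp_nat_mul]
        refine Real.exp_le_exp.2 ?_
        have : (0 : ℝ) ≤ K := Nat.cast_nonneg _
        linarith

theorem boot_step [Nonempty V] {t i : ℕ} {L A : ℝ} (hL : 1 ≤ L) (hA : 1 ≤ A)
    (hS : Spread V t L) (h : TI V t i A) : TI V t (i + 1) ((12 * dd V L) ^ (i + 1) * A) := by
  intro b y hb hy U hU S S'
  rcases Nat.lt_or_ge (Fintype.card V) y with hyN | hyN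
  · rw [ge_eq_zero S y hyN, zero_mul, zero_mul, norm_zero]
    exact (Real.exp_pos _).le
  have hN1 : (1 : ℝ) ≤ (Fintype.card V : ℝ) := by
    have : 0 < Fintype.card V := Fintype.card_pos
    exact_mod_cast this
  have hyN' : (y : ℝ) ≤ (Fintype.card V : ℝ) := by exact_mod_cast hyN
  have hl1 : 1 ≤ lam V := lam_pos
  have hel := boot_exp_lam (V := V)
  obtain ⟨hy0, hy12, hE208, hDE⟩ := boot_num (l := lam V) (L := L) (A := A) (b := b)
    (N := (Fintype.card V : ℝ)) (y := (y : ℝ)) (D := dd V L) (E := 208 * L * lam V ^ 2) (i := i)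
    hl1 hL hA hb hN1 hyN' rfl rfl (Nat.cast_nonneg _) hy
  have hb0 : 0 < b := by linarith
  have hLl1 : 1 ≤ L * lam V := by nlinarith
  have hE1 : 208 ≤ 208 * L * lam V ^ 2 := by linarith
  have hD1 : 1 ≤ dd V L := by linarith
  have hDb : 0 < dd V L * b := by positivity
  obtain ⟨R, hR⟩ : ∃ R : ℝ, R = (y : ℝ) ^ 2 / (dd V L * b) := ⟨_, rfl⟩
  have hR12 : 12 * y ≤ R := by
    rw [hR, le_div_iff₀ hDb]
    calc 12 * (y : ℝ) * (dd V L * b) = (12 * dd V L * b) * y := by ring
      _ ≤ y * y := mul_le_mul_of_nonneg_right hy12 hy0.le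
      _ = (y : ℝ) ^ 2 := (sq _).symm
  have hR0 : 0 < R := by linarith
  have hby : 12 * b ≤ y := by
    have : 12 * 1 * b ≤ 12 * dd V L * b := by
      refine mul_le_mul_of_nonneg_right ?_ hb0.le
      linarith
    linarith
  have hR4 : 4 * b ≤ R := by linarith
  obtain ⟨K, ρ, q, hK, hlK, hρ, hqd, hq0, hqs, hqb⟩ :=
    exists_poly (Fintype.card V) (lam V) b R hl1 (by rw [hel]; linarith) hb hR4
  have hK1 : (1 : ℝ) ≤ K := hl1.trans hlK
  -- `8 L lam K ≤ y`
  have hKy : 8 * (L * lam V) * K ≤ y := by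
    have h1 : √(R * b) = y / (208 * L * lam V ^ 2) := by
      have : R * b = (y / (208 * L * lam V ^ 2)) ^ 2 := by
        rw [hR, dd, div_pow]
        field_simp
      rw [this, Real.sqrt_sq (by positivity)]
    rw [h1] at hK
    calc 8 * (L * lam V) * K ≤ 8 * (L * lam V) * (26 * lam V * (y / (208 * L * lam V ^ 2))) :=
          mul_le_mul_of_nonneg_left hK (by positivity)
      _ = y := by
          have hL0 : L ≠ 0 := by positivity
          have hl0 : lam V ≠ 0 := by positivity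
          field_simp
          ring
  have hK8 : 8 * K ≤ (y : ℝ) := by
    refine le_trans ?_ hKy
    have : 8 * 1 * (K : ℝ) ≤ 8 * (L * lam V) * K := by
      refine mul_le_mul_of_nonneg_right ?_ (by linarith)
      linarith
    linarith
  have hρR : (ρ : ℝ) ≤ R := by linarith
  have he1 : Real.exp (-(2 * b + 2)) ≤ 1 := Real.exp_le_one_iff.2 (by linarith)
  -- the operator inequality
  have hU' : Circ t (star U) := hU.adj
  have key := boot_core hU' S S' y (fun m => q.eval (m : ℝ)) (by simpa using hq0) R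
    (Real.exp (-(2 * b + 2))) (Real.exp_pos _).le (fun m h1 h2 h3 => hqs m h1 h2 h3)
  rw [star_star] at key
  have hterm1 := boot_term1 hL hb hS hU S S' y ρ K q hqd (by
    intro m hm hmN
    rcases Nat.eq_zero_or_pos m with h0 | h0
    · subst h0
      simp [hq0]
    · refine (hqs m h0 hmN ?_).trans he1
      exact le_trans (by exact_mod_cast hm) hρR) hρ hKy (by
    have h1 : 32 * (L * lam V) * b ≤ 12 * dd V L * b := by
      refine mul_le_mul_of_nonneg_right ?_ hb0.le
      linarith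
    linarith)
  -- the third term
  have hterm3 : ∑ m ∈ (Finset.range (Fintype.card V + 1)).filter (fun m : ℕ => R < (m : ℝ)),
      |q.eval (m : ℝ)| * ‖ge S' m * (star U * pr S * U) * pr S'‖ ≤ Real.exp (-(2 * b + 2)) := by
    have hone : ∀ m ∈ (Finset.range (Fintype.card V + 1)).filter (fun m : ℕ => R < (m : ℝ)),
        |q.eval (m : ℝ)| * ‖ge S' m * (star U * pr S * U) * pr S'‖ ≤
          Real.exp (-(2 * b + 2)) * Real.exp (-(lam V)) := by
      intro m hm
      rw [Finset.mem_filter, Finset.mem_range] at hm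
      obtain ⟨hmN, hmR⟩ := hm
      have hmN' : m ≤ Fintype.card V := by omega
      have hu1 : 1 ≤ (m : ℝ) / R := by
        rw [le_div_iff₀ hR0]
        linarith
      have h1 : |q.eval (m : ℝ)| ≤ Real.exp (-(2 * b + 2)) * (8 * ((m : ℝ) / R)) ^ K := by
        have := hqb m hmN' hmR
        rw [mul_div_assoc] at this
        exact this
      have h2 : ‖ge S' m * (star U * pr S * U) * pr S'‖ ≤
          Real.exp (-(6 * ((m : ℝ) / R) * K)) := by
        have h30 := boot_num2 (i := i) (K := K) hA hb hN1 hD1 hR hR0 hu1 hy0 hK8 hy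
        rw [mul_div_cancel₀ _ hR0.ne'] at h30
        have h31 : 1 ≤ 6 * ((m : ℝ) / R) * K := by nlinarith
        have h3 := h (6 * ((m : ℝ) / R) * K) m h31 h30 (star U) hU' S' S
        rw [star_star] at h3
        exact h3
      exact boot_term3 (Real.exp_pos _).le hlK hu1 h1 h2 (norm_nonneg _)
    calc _ ≤ ((Finset.range (Fintype.card V + 1)).filter
            (fun m : ℕ => R < (m : ℝ))).card • (Real.exp (-(2 * b + 2)) * Real.exp (-(lam V))) :=
          Finset.sum_le_card_nsmul _ _ _ hone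
      _ ≤ (Fintype.card V + 1 : ℕ) • (Real.exp (-(2 * b + 2)) * Real.exp (-(lam V))) := by
          refine nsmul_le_nsmul_left (by positivity) ?_
          exact (Finset.card_filter_le _ _).trans (by rw [Finset.card_range])
      _ ≤ Real.exp (-(2 * b + 2)) := by
          rw [nsmul_eq_mul]
          have h8 : ((Fintype.card V + 1 : ℕ) : ℝ) ≤ Real.exp (lam V) := by
            rw [hel]
            push_cast
            linarith
          calc ((Fintype.card V + 1 : ℕ) : ℝ) * (Real.exp (-(2 * b + 2)) * Real.exp (-(lam V)))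
              ≤ Real.exp (lam V) * (Real.exp (-(2 * b + 2)) * Real.exp (-(lam V))) :=
                mul_le_mul_of_nonneg_right h8 (by positivity)
            _ = Real.exp (-(2 * b + 2)) * (Real.exp (lam V) * Real.exp (-(lam V))) := by ring
            _ = Real.exp (-(2 * b + 2)) := by
                rw [← Real.exp_add (lam V), add_neg_cancel, Real.exp_zero, mul_one]
  have htot : ‖ge S y * (U * pr S' * star U) * pr S‖ ^ 2 ≤
      Real.exp (-(2 * b + 2)) + Real.exp (-(2 * b + 2)) + Real.exp (-(2 * b + 2)) :=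
    key.trans (add_le_add (add_le_add hterm1 le_rfl) hterm3)
  have h3e : Real.exp (-(2 * b + 2)) + Real.exp (-(2 * b + 2)) + Real.exp (-(2 * b + 2)) ≤
      Real.exp (-b) ^ 2 := by
    have h9 : Real.exp (-(2 * b + 2)) = Real.exp (-b) ^ 2 * Real.exp (-2) := by
      rw [← Real.exp_nat_mul, ← Real.exp_add]
      congr 1
      push_cast
      ring
    have h10 : Real.exp (-2) ≤ 1 / 3 := by
      rw [Real.exp_neg, inv_eq_one_div]
      refine one_div_le_one_div_of_le (by norm_num) ?_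
      have := Real.add_one_le_exp (2 : ℝ)
      linarith
    rw [h9]
    have h11 : Real.exp (-b) ^ 2 * Real.exp (-2) ≤ Real.exp (-b) ^ 2 * (1 / 3) :=
      mul_le_mul_of_nonneg_left h10 (sq_nonneg _)
    linarith
  exact le_of_sq_le_sq (htot.trans h3e) (Real.exp_pos _).le

end P368M
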