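import Vale.Agent.P368M.Circuits

/-! Module BOOTA: the operator inequality of the bootstrap step.

`X = ge S y * (star U * F * U) * pr S`, `F = pr S'`, `P = U * pr S * star U`.
`X * star X = ge S y * star U * F * P * F * U * ge S y`, so by `norm_sq_eq`
`‖X‖² ≤ ‖ge S y * star U * F * P * F‖`.  Write `F = Q + (F - Q)`, `Q = diagonal (g (cnt S' ·))`:
`‖ge S y * star U * Q * P * F‖ ≤ ‖ge S y * (star U * Q * U) * pr S‖`, and
`F - Q = - ∑_{m=1}^N g m * E_m`, `E_m = [cnt S' = m]`; the part `1 ≤ m ≤ R` is a diagonal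
operator of norm `≤ e`, and `‖E_m * P * F‖ ≤ ‖ge S' m * P * F‖` (`E_m = E_m * ge S' m`). -/

namespace P368M

open scoped Matrix.Norms.L2Operator

variable {V : Type} [Fintype V] [DecidableEq V]

/-- contraction on the left -/
theorem bootA_left {A B : Op V} (hA : ‖A‖ ≤ 1) : ‖A * B‖ ≤ ‖B‖ :=
  (norm_mul_le A B).trans (by
    have := mul_le_mul_of_nonneg_right hA (norm_nonneg B)
    simpa using this)

/-- contraction on the right -/
theorem bootA_right {A B : Op V} (hB : ‖B‖ ≤ 1) : ‖A * B‖ ≤ ‖A‖ :=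
  (norm_mul_le A B).trans (by
    have := mul_le_mul_of_nonneg_left hB (norm_nonneg A)
    simpa using this)

/-- exactly `m` false bits -/
noncomputable def eqc (S : Finset V) (m : ℕ) : Op V :=
  Matrix.diagonal fun x => if cnt S x = m then 1 else 0

theorem eqc_mul_ge (S : Finset V) (m : ℕ) : eqc S m * ge S m = eqc S m := by
  unfold eqc ge
  rw [Matrix.diagonal_mul_diagonal]
  congr 1
  funext x
  by_cases h : cnt S x = m
  · simp [h]
  · simp [h]

theorem norm_eqc_le (S : Finset V) (m : ℕ) : ‖eqc S m‖ ≤ 1 := by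
  refine norm_diag_le _ zero_le_one fun x => ?_
  split_ifs <;> simp

theorem boot_split (S' : Finset V) (g : ℕ → ℝ) (h0 : g 0 = 1) (R : ℝ) :
    (pr S' : Op V) = (Matrix.diagonal fun x : V → Bool => ((g (cnt S' x) : ℝ) : ℂ))
      - ((Matrix.diagonal fun x : V → Bool =>
          if 1 ≤ cnt S' x ∧ (cnt S' x : ℝ) ≤ R then ((g (cnt S' x) : ℝ) : ℂ) else 0)
        + ∑ m ∈ (Finset.range (Fintype.card V + 1)).filter (fun m : ℕ => R < (m : ℝ)),
            ((if m = 0 then 0 else g m : ℝ) : ℂ) • eqc S' m) := by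
  have hpr : (pr S' : Op V) = Matrix.diagonal fun x => if cnt S' x = 0 then 1 else 0 := by
    rw [← le_zero]
    unfold le
    congr 1
    funext x
    simp
  have hsum : (∑ m ∈ (Finset.range (Fintype.card V + 1)).filter (fun m : ℕ => R < (m : ℝ)),
            ((if m = 0 then 0 else g m : ℝ) : ℂ) • eqc S' m : Op V)
      = Matrix.diagonal fun x : V → Bool =>
          if R < (cnt S' x : ℝ) ∧ cnt S' x ≠ 0 then ((g (cnt S' x) : ℝ) : ℂ) else 0 := by
    ext x y
    rw [Matrix.sum_apply]
    by_cases hxy : x = y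
    · subst hxy
      simp only [eqc, Matrix.smul_apply, Matrix.diagonal_apply_eq, smul_eq_mul]
      by_cases hR : R < (cnt S' x : ℝ)
      · have hmem : cnt S' x ∈ (Finset.range (Fintype.card V + 1)).filter
            (fun m : ℕ => R < (m : ℝ)) :=
          Finset.mem_filter.2 ⟨Finset.mem_range.2 (Nat.lt_succ_of_le (cnt_le_card S' x)), hR⟩
        rw [Finset.sum_eq_single_of_mem _ hmem]
        · by_cases h0' : cnt S' x = 0
          · simp [h0']
          · simp [h0', hR]
        · intro m _ hm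
          simp [Ne.symm hm]
      · rw [Finset.sum_eq_zero]
        · simp [hR]
        · intro m hm
          have hm' := (Finset.mem_filter.1 hm).2
          have : cnt S' x ≠ m := by
            rintro rfl
            exact hR hm'
          simp [this]
    · simp only [eqc, Matrix.smul_apply, Matrix.diagonal_apply_ne _ hxy, smul_eq_mul, mul_zero,
        Finset.sum_const_zero]
  rw [hpr, hsum]
  rw [Matrix.diagonal_add, Matrix.diagonal_sub]
  congr 1
  funext x
  by_cases hc : cnt S' x = 0
  · simp [hc, h0]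
  · by_cases hR : (cnt S' x : ℝ) ≤ R
    · have h1 : 1 ≤ cnt S' x := Nat.one_le_iff_ne_zero.2 hc
      simp [hc, hR, h1, not_lt.2 hR]
    · have hR' : R < (cnt S' x : ℝ) := not_le.1 hR
      simp [hc, hR, hR']

/-- the algebraic identity -/
theorem boot_alg {J : Finset ℕ} (P G U Us F Q D H : Op V) (c : ℕ → ℂ) (E K : ℕ → Op V)
    (hF : F = Q - (D + ∑ m ∈ J, c m • E m)) (hEK : ∀ m, E m * K m = E m)
    (hP : P = U * H * Us) :
    G * Us * (F * P * F)
      = (G * (Us * Q * U) * H) * (Us * F)
        - (G * Us) * (D * (P * F) + ∑ m ∈ J, c m • (E m * (K m * P * F))) := by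
  have e1 : F * P * F = Q * (P * F) - (D * (P * F)
      + ∑ m ∈ J, c m • (E m * (K m * P * F))) := by
    have e0 : F * P * F = F * (P * F) := mul_assoc _ _ _
    have e2 : F * (P * F) = Q * (P * F) - (D * (P * F) + ∑ m ∈ J, c m • (E m * (P * F))) := by
      conv_lhs => enter [1]; rw [hF]
      rw [sub_mul, add_mul, Finset.sum_mul]
      congr 2
      refine Finset.sum_congr rfl fun m _ => ?_
      rw [smul_mul_assoc]
    rw [e0, e2]
    congr 2
    refine Finset.sum_congr rfl fun m _ => ?_
    congr 1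
    rw [mul_assoc (K m) P F, ← mul_assoc (E m) (K m), hEK]
  rw [e1, mul_sub]
  congr 1
  rw [hP]
  simp only [mul_assoc]

theorem boot_alg2 (G U Us F H : Op V) (hH : H * H = H) :
    (G * (Us * F * U) * H) * (H * (Us * (F * U) * G))
      = (G * Us * (F * (U * H * Us) * F)) * (U * G) := by
  calc (G * (Us * F * U) * H) * (H * (Us * (F * U) * G))
      = G * (Us * F * U) * (H * H) * (Us * (F * U) * G) := by
          simp only [mul_assoc]
      _ = _ := by
          rw [hH]
          simp only [mul_assoc]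

theorem boot_core {t : ℕ} {U : Op V} (hU : Circ t U) (S S' : Finset V) (y : ℕ)
    (g : ℕ → ℝ) (h0 : g 0 = 1) (R e : ℝ) (he : 0 ≤ e)
    (hg : ∀ m : ℕ, 1 ≤ m → m ≤ Fintype.card V → (m : ℝ) ≤ R → |g m| ≤ e) :
    ‖ge S y * (star U * pr S' * U) * pr S‖ ^ 2 ≤
      ‖ge S y * (star U * (Matrix.diagonal fun x : V → Bool => ((g (cnt S' x) : ℝ) : ℂ)) * U)
          * pr S‖ + e +
        ∑ m ∈ (Finset.range (Fintype.card V + 1)).filter (fun m : ℕ => R < (m : ℝ)),
          |g m| * ‖ge S' m * (U * pr S * star U) * pr S'‖ := by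
  have hUn : ‖U‖ ≤ 1 := hU.norm_le
  have hUs : ‖star U‖ ≤ 1 := hU.norm_star_le
  have hG : ‖ge S y‖ ≤ 1 := norm_ge_le S y
  have hF : ‖pr S'‖ ≤ 1 := norm_pr_le S'
  have hDn : ‖(Matrix.diagonal fun x : V → Bool =>
          if 1 ≤ cnt S' x ∧ (cnt S' x : ℝ) ≤ R then ((g (cnt S' x) : ℝ) : ℂ) else 0 : Op V)‖
      ≤ e := by
    refine norm_diag_le _ he fun x => ?_
    split_ifs with h
    · rw [Complex.norm_real, Real.norm_eq_abs]
      exact hg _ h.1 (cnt_le_card S' x) h.2
    · simpa using he
  have hsplit := boot_split S' g h0 R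
  have hXX : (ge S y * (star U * pr S' * U) * pr S) * star (ge S y * (star U * pr S' * U) * pr S)
      = (ge S y * star U * (pr S' * (U * pr S * star U) * pr S')) * (U * ge S y) := by
    have hst : star (ge S y * (star U * pr S' * U) * pr S)
        = pr S * (star U * (pr S' * U) * ge S y) := by
      simp only [star_mul, star_star, star_ge, star_pr, mul_assoc]
    rw [hst]
    exact boot_alg2 _ _ _ _ _ (pr_mul_pr S)
  have hle1 : ‖ge S y * (star U * pr S' * U) * pr S‖ ^ 2
      ≤ ‖ge S y * star U * (pr S' * (U * pr S * star U) * pr S')‖ := by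
    rw [norm_sq_eq, hXX]
    refine bootA_right ?_
    exact (bootA_left hUn).trans hG
  have hdec := boot_alg (U * pr S * star U) (ge S y) U (star U) (pr S') _ _ (pr S) _ _
    (fun m => ge S' m) hsplit (fun m => eqc_mul_ge S' m) rfl
  have hA : ‖ge S y * star U‖ ≤ 1 := (bootA_left hG).trans hUs
  have hPn : ‖(U * pr S * star U) * pr S'‖ ≤ 1 := by
    refine (bootA_right hF).trans ?_
    exact (hU.norm_conj_le _).trans (norm_pr_le S)
  rw [hdec] at hle1
  refine hle1.trans ((norm_sub_le _ _).trans ?_)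
  rw [add_assoc]
  refine add_le_add (bootA_right ((bootA_left hUs).trans hF)) ?_
  refine (bootA_left hA).trans ((norm_add_le _ _).trans (add_le_add ?_ ?_))
  · exact (bootA_right hPn).trans hDn
  · refine (norm_sum_le _ _).trans (Finset.sum_le_sum fun m _ => ?_)
    rw [norm_smul]
    refine mul_le_mul ?_ (bootA_left (norm_eqc_le S' m)) (norm_nonneg _) (abs_nonneg _)
    rw [Complex.norm_real, Real.norm_eq_abs]
    split_ifs with h
    · simp
    · exact le_rfl

end P368M
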