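import Vale.Agent.P368M.Circuits
import Vale.Agent.P368.Defs

/-! Module BRIDGE: a QAC circuit (definitions in `Vale/Agent/P368/Defs.lean`) is in `Circ`.

`layer_matrix`: `L.act ψ = P *ᵥ (tens L.W *ᵥ ψ)` with `P z y = [toffoli c y = z]`.  Let
`H a b = (if a && b then -1 else 1)/√2` on the targets `{v | (c v).Nonempty}` and `1` elsewhere
(`tens Ht`), `𝒮 = image (fun v => insert v (c v))` of the targets.  Claim
`P * tens Ht = tens Ht * sgn 𝒮`: entry `(z,y)`: `toffoli c` is an involution (controls of a gate
are not targets), so the left side is `tens Ht (toffoli c z) y`; both sides vanish unless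
`z = y` off the targets, and then `H (z_i xor b_i) y_i = H z_i y_i * (-1)^(b_i ∧ y_i)`, where
`b_i` = all controls of `i` are true (in `z` or in `y`, the same).  Since `tens Ht ^ 2 = 1`,
`P = tens Ht * sgn 𝒮 * tens Ht`.  The map `v ↦ insert v (c v)` is injective on targets and the
product over `𝒮` is the product over targets (`Finset.prod_image`). -/

namespace P368M

open scoped Matrix.Norms.L2Operator
open P368

variable {V : Type} [Fintype V] [DecidableEq V]

theorem oneQubit_eq (W : V → Matrix Bool Bool ℂ) (ψ : Ket V) :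
    oneQubit W ψ = (tens W).mulVec ψ := by
  funext z
  rfl

/-- the Hadamard matrix -/
private noncomputable def hd : Matrix Bool Bool ℂ :=
  fun a b => (if a = true ∧ b = true then (-1 : ℂ) else 1) / (√2 : ℝ)

/-- Hadamard matrices at the targets -/
private noncomputable def ht (c : V → Finset V) : V → Matrix Bool Bool ℂ :=
  fun v => if (c v).Nonempty then hd else 1

private theorem sqrt2_sq : ((√2 : ℝ) : ℂ) * ((√2 : ℝ) : ℂ) = 2 := by
  rw [← Complex.ofReal_mul, Real.mul_self_sqrt (by norm_num)]
  norm_num

private theorem sqrt2_ne : ((√2 : ℝ) : ℂ) ≠ 0 := by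
  rw [Complex.ofReal_ne_zero]
  positivity

private theorem hd_mul_hd : hd * hd = 1 := by
  have h2 := sqrt2_sq
  have h0 := sqrt2_ne
  ext a b
  rw [Matrix.mul_apply, Fintype.sum_bool]
  cases a <;> cases b <;> simp [hd]
  · field_simp
    rw [pow_two, h2]
    norm_num
  · field_simp
    norm_num
  · field_simp
    norm_num
  · field_simp
    rw [pow_two, h2]
    norm_num

private theorem star_hd : star hd = hd := by
  ext a b
  rw [Matrix.star_apply]
  cases a <;> cases b <;> simp [hd]

private theorem hd_unitary : hd ∈ Matrix.unitaryGroup Bool ℂ := by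
  rw [Matrix.mem_unitaryGroup_iff, star_hd, hd_mul_hd]

omit [Fintype V] [DecidableEq V] in
private theorem ht_uni (c : V → Finset V) : Uni (ht c) := by
  intro v
  unfold ht
  split_ifs
  · exact hd_unitary
  · exact one_mem _

private theorem ht_mul_ht (c : V → Finset V) : tens (ht c) * tens (ht c) = 1 := by
  rw [tens_mul, ← tens_one]
  congr 1
  funext v
  unfold ht
  split_ifs
  · exact hd_mul_hd
  · exact one_mul _

/-- the matrix of a layer of Toffoli gates -/
private noncomputable def pmat (c : V → Finset V) : Op V :=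
  fun z y => if toffoli c y = z then 1 else 0

private theorem act_eq (L : Layer V) (ψ : Ket V) :
    L.act ψ = (pmat L.ctrl).mulVec ((tens L.W).mulVec ψ) := by
  funext z
  show _ = ∑ y, pmat L.ctrl z y * (tens L.W).mulVec ψ y
  unfold Layer.act
  refine Finset.sum_congr rfl fun y _ => ?_
  rw [oneQubit_eq]
  unfold pmat
  split_ifs <;> simp

omit [Fintype V] [DecidableEq V] in
private theorem toffoli_apply (c : V → Finset V) (z : V → Bool) (v : V)
    [Decidable ((c v).Nonempty ∧ ∀ w ∈ c v, z w = true)] :
    toffoli c z v = xor (z v) (decide ((c v).Nonempty ∧ ∀ w ∈ c v, z w = true)) := by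
  unfold toffoli
  congr

section
variable {L : Layer V} (hL : L.Valid)
include hL

omit [Fintype V] in
/-- controls are not targets -/
private theorem ctrl_not_target {v w : V} (hw : w ∈ L.ctrl v) : ¬ (L.ctrl w).Nonempty := by
  intro hn
  have hv : (L.ctrl v).Nonempty := ⟨w, hw⟩
  have hne : v ≠ w := by
    rintro rfl
    exact hL.target_notMem v hw
  have h1 := hL.disjoint v w hne hv hn
  exact (Finset.disjoint_left.1 h1) (Finset.mem_insert_of_mem hw) (Finset.mem_insert_self _ _)

omit [Fintype V] in
private theorem toffoli_ctrl {v w : V} (hw : w ∈ L.ctrl v) (z : V → Bool) :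
    toffoli L.ctrl z w = z w := by
  unfold toffoli
  have h1 := ctrl_not_target hL hw
  simp [h1]

private theorem toffoli_invol (z : V → Bool) : toffoli L.ctrl (toffoli L.ctrl z) = z := by
  funext v
  have h1 : ∀ w ∈ L.ctrl v, toffoli L.ctrl z w = z w := fun w hw => toffoli_ctrl hL hw z
  have h2 : (∀ w ∈ L.ctrl v, toffoli L.ctrl z w = true) ↔ ∀ w ∈ L.ctrl v, z w = true := by
    constructor
    · intro h w hw
      rw [← h1 w hw]
      exact h w hw
    · intro h w hw
      rw [h1 w hw]
      exact h w hw
  classical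
  have h3 : (decide ((L.ctrl v).Nonempty ∧ ∀ w ∈ L.ctrl v, toffoli L.ctrl z w = true)) =
      (decide ((L.ctrl v).Nonempty ∧ ∀ w ∈ L.ctrl v, z w = true)) := by
    rw [decide_eq_decide, h2]
  rw [toffoli_apply L.ctrl (toffoli L.ctrl z) v, h3, toffoli_apply L.ctrl z v]
  cases z v <;> cases (decide ((L.ctrl v).Nonempty ∧ ∀ w ∈ L.ctrl v, z w = true)) <;> rfl

/-- the sets of the gates -/
private theorem gates_inj : Set.InjOn (fun v => insert v (L.ctrl v))
    ((Finset.univ.filter fun v => (L.ctrl v).Nonempty : Finset V) : Set V) := by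
  intro v hv w hw h
  rw [Finset.mem_coe, Finset.mem_filter] at hv hw
  by_contra hne
  have h1 := hL.disjoint v w hne hv.2 hw.2
  have h2 : insert v (L.ctrl v) = insert w (L.ctrl w) := h
  rw [← h2] at h1
  exact (Finset.disjoint_left.1 h1) (Finset.mem_insert_self _ _) (Finset.mem_insert_self _ _)

private theorem gates_disj : (((Finset.univ.filter fun v => (L.ctrl v).Nonempty).image
    (fun v => insert v (L.ctrl v)) : Finset (Finset V)) : Set (Finset V)).PairwiseDisjoint id := by
  intro S hS T hT hST
  rw [Finset.mem_coe, Finset.mem_image] at hS hT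
  obtain ⟨v, hv, rfl⟩ := hS
  obtain ⟨w, hw, rfl⟩ := hT
  rw [Finset.mem_filter] at hv hw
  have hne : v ≠ w := by
    rintro rfl
    exact hST rfl
  exact hL.disjoint v w hne hv.2 hw.2

private theorem pmat_mul : pmat L.ctrl * tens (ht L.ctrl) = tens (ht L.ctrl) *
    sgn ((Finset.univ.filter fun v => (L.ctrl v).Nonempty).image
      (fun v => insert v (L.ctrl v))) := by
  ext z y
  have e1 : (pmat L.ctrl * tens (ht L.ctrl)) z y =
      tens (ht L.ctrl) (toffoli L.ctrl z) y := by
    rw [Matrix.mul_apply, Finset.sum_eq_single (toffoli L.ctrl z)]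
    · unfold pmat
      rw [if_pos (toffoli_invol hL z), one_mul]
    · intro w _ hw
      unfold pmat
      rw [if_neg, zero_mul]
      intro h
      apply hw
      rw [← h, toffoli_invol hL]
    · intro h
      exact absurd (Finset.mem_univ _) h
  rw [e1]
  unfold sgn
  rw [Matrix.mul_diagonal, Finset.prod_image (gates_inj hL), Finset.prod_filter]
  unfold tens
  rw [← Finset.prod_mul_distrib]
  by_cases hzy : ∀ v, ¬ (L.ctrl v).Nonempty → z v = y v
  · refine Finset.prod_congr rfl fun v _ => ?_
    by_cases hv : (L.ctrl v).Nonempty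
    · have h1 : (∀ w ∈ L.ctrl v, z w = true) ↔ ∀ w ∈ L.ctrl v, y w = true := by
        constructor
        · intro h w hw
          rw [← hzy w (ctrl_not_target hL hw)]
          exact h w hw
        · intro h w hw
          rw [hzy w (ctrl_not_target hL hw)]
          exact h w hw
      have h2 : toffoli L.ctrl z v = xor (z v) (decide (∀ w ∈ L.ctrl v, y w = true)) := by
        classical
        rw [toffoli_apply L.ctrl z v]
        congr 1
        rw [decide_eq_decide, h1]
        exact ⟨fun h => h.2, fun h => ⟨hv, h⟩⟩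
      rw [h2, if_pos hv]
      unfold ht
      rw [if_pos hv]
      by_cases h3 : ∀ w ∈ L.ctrl v, y w = true
      · rw [decide_eq_true h3, Bool.xor_true]
        rcases hy : y v with _ | _
        · rw [if_neg (fun h => by
            have := h v (Finset.mem_insert_self _ _)
            rw [hy] at this
            exact Bool.noConfusion this), mul_one]
          cases z v <;> simp [hd]
        · rw [if_pos (fun w hw => by
            rcases Finset.mem_insert.1 hw with rfl | hw
            · exact hy
            · exact h3 w hw)]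
          cases z v
          · simp [hd, neg_div]
          · simp [hd, neg_div]
      · rw [decide_eq_false h3, Bool.xor_false, if_neg (fun h => h3 fun w hw =>
          h w (Finset.mem_insert_of_mem hw)), mul_one]
    · have h2 : toffoli L.ctrl z v = z v := by
        unfold toffoli
        simp [hv]
      rw [h2, if_neg hv, mul_one]
  · simp only [not_forall] at hzy
    obtain ⟨v, hv, hne⟩ := hzy
    rw [Finset.prod_eq_zero (Finset.mem_univ v), Finset.prod_eq_zero (Finset.mem_univ v)]
    · unfold ht
      rw [if_neg hv, Matrix.one_apply, if_neg hne, zero_mul]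
    · have h2 : toffoli L.ctrl z v = z v := by
        unfold toffoli
        simp [hv]
      unfold ht
      rw [h2, if_neg hv, Matrix.one_apply, if_neg hne]

end

theorem layer_matrix (L : Layer V) (hL : L.Valid) :
    ∃ (𝒮 : Finset (Finset V)) (W W' : V → Matrix Bool Bool ℂ),
      (𝒮 : Set (Finset V)).PairwiseDisjoint id ∧ Uni W ∧ Uni W' ∧
      ∀ ψ : Ket V, L.act ψ = (tens W' * sgn 𝒮 * tens W).mulVec ψ := by
  refine ⟨(Finset.univ.filter fun v => (L.ctrl v).Nonempty).image
    (fun v => insert v (L.ctrl v)), fun v => ht L.ctrl v * L.W v, ht L.ctrl, gates_disj hL,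
    (ht_uni _).mul hL.unitary, ht_uni _, fun ψ => ?_⟩
  have h1 : pmat L.ctrl = tens (ht L.ctrl) *
      sgn ((Finset.univ.filter fun v => (L.ctrl v).Nonempty).image
        (fun v => insert v (L.ctrl v))) * tens (ht L.ctrl) := by
    rw [← pmat_mul hL, mul_assoc, ht_mul_ht, mul_one]
  rw [act_eq, Matrix.mulVec_mulVec, h1, mul_assoc, tens_mul]

/-- induction on the list: `run (L :: C) ψ = M_C *ᵥ (act L ψ)`, `Circ.mul_tens` -/
theorem run_matrix (C : List (Layer V)) (hC : ∀ l ∈ C, l.Valid) :
    ∃ M : Op V, Circ C.length M ∧ ∀ ψ : Ket V, run C ψ = M.mulVec ψ := by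
  induction C with
  | nil =>
    refine ⟨1, ?_, fun ψ => ?_⟩
    · rw [← tens_one]
      exact Circ.zero _ Uni.one
    · rw [Matrix.one_mulVec]
      rfl
  | cons L C ih =>
    obtain ⟨M, hM, hrun⟩ := ih (fun l hl => hC l (List.mem_cons_of_mem _ hl))
    obtain ⟨𝒮, W, W', h𝒮, hW, hW', hact⟩ := layer_matrix L (hC L List.mem_cons_self)
    refine ⟨M * tens W' * sgn 𝒮 * tens W, ?_, fun ψ => ?_⟩
    · exact Circ.succ _ _ _ _ (hM.mul_tens hW') h𝒮 hW
    · show run C (L.act ψ) = _
      rw [hrun, hact, Matrix.mulVec_mulVec]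
      congr 1
      simp only [mul_assoc]

theorem circuit_matrix (C : List (Layer V)) (hC : ∀ l ∈ C, l.Valid)
    (F : V → Matrix Bool Bool ℂ) (hF : ∀ v, F v ∈ Matrix.unitaryGroup Bool ℂ) :
    ∃ M : Op V, Circ C.length M ∧ ∀ ψ : Ket V, oneQubit F (run C ψ) = M.mulVec ψ := by
  obtain ⟨M, hM, hrun⟩ := run_matrix C hC
  refine ⟨tens F * M, hM.tens_mul hF, fun ψ => ?_⟩
  rw [oneQubit_eq, hrun, Matrix.mulVec_mulVec]

end P368M
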