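import Vale.Agent.P368M.Tens

/-! Module CIRC: closure properties of `Circ`. -/

namespace P368M

open scoped Matrix.Norms.L2Operator

variable {V : Type} [Fintype V] [DecidableEq V]

theorem Circ.mul_tens {t : ℕ} {U : Op V} (h : Circ t U) {W : V → Matrix Bool Bool ℂ}
    (hW : Uni W) : Circ t (U * tens W) := by
  cases h with
  | zero W' hW' =>
    rw [P368M.tens_mul]
    exact Circ.zero _ (hW'.mul hW)
  | succ t U 𝒮 W' hU h𝒮 hW' =>
    rw [mul_assoc, P368M.tens_mul]
    exact Circ.succ t U 𝒮 _ hU h𝒮 (hW'.mul hW)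

theorem Circ.tens_mul {t : ℕ} {U : Op V} (h : Circ t U) {W : V → Matrix Bool Bool ℂ}
    (hW : Uni W) : Circ t (tens W * U) := by
  induction h with
  | zero W' hW' =>
    rw [P368M.tens_mul]
    exact Circ.zero _ (hW.mul hW')
  | succ t U 𝒮 W' hU h𝒮 hW' ih =>
    rw [← mul_assoc, ← mul_assoc]
    exact Circ.succ t _ 𝒮 _ ih h𝒮 hW'

/-- a layer can be added on the left as well (induction on `h`) -/
theorem Circ.left_succ {t : ℕ} {U : Op V} (h : Circ t U) (𝒮 : Finset (Finset V))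
    (h𝒮 : (𝒮 : Set (Finset V)).PairwiseDisjoint id) {W : V → Matrix Bool Bool ℂ}
    (hW : Uni W) : Circ (t + 1) (tens W * sgn 𝒮 * U) := by
  induction h with
  | zero W' hW' => exact Circ.succ 0 _ 𝒮 _ (Circ.zero W hW) h𝒮 hW'
  | succ t U 𝒮' W' hU h𝒮' hW' ih =>
    rw [← mul_assoc, ← mul_assoc]
    exact Circ.succ (t + 1) _ 𝒮' _ ih h𝒮' hW'

theorem Circ.adj {t : ℕ} {U : Op V} (h : Circ t U) : Circ t (star U) := by
  induction h with
  | zero W' hW' =>
    rw [star_tens]
    exact Circ.zero _ hW'.adj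
  | succ t U 𝒮 W' hU h𝒮 hW' ih =>
    rw [star_mul, star_mul, star_tens, star_sgn, ← mul_assoc]
    exact ih.left_succ 𝒮 h𝒮 hW'.adj

theorem Circ.star_mul_self {t : ℕ} {U : Op V} (h : Circ t U) : star U * U = 1 := by
  induction h with
  | zero W' hW' => exact star_tens_mul_self hW'
  | succ t U 𝒮 W' hU h𝒮 hW' ih =>
    rw [star_mul, star_mul, star_sgn]
    calc star (tens W') * (sgn 𝒮 * star U) * (U * sgn 𝒮 * tens W') =
        star (tens W') * (sgn 𝒮 * (star U * U) * sgn 𝒮) * tens W' := by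
          simp only [mul_assoc]
      _ = 1 := by rw [ih, mul_one, sgn_mul_self, mul_one, star_tens_mul_self hW']

theorem Circ.mul_star_self {t : ℕ} {U : Op V} (h : Circ t U) : U * star U = 1 := by
  have h1 := h.adj.star_mul_self
  rwa [star_star] at h1

theorem Circ.norm_le {t : ℕ} {U : Op V} (h : Circ t U) : ‖U‖ ≤ 1 :=
  norm_unitary_le U h.star_mul_self

theorem Circ.norm_star_le {t : ℕ} {U : Op V} (h : Circ t U) : ‖star U‖ ≤ 1 :=
  h.adj.norm_le

/-- conjugation does not increase the norm -/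
theorem Circ.norm_conj_le {t : ℕ} {U : Op V} (h : Circ t U) (w : Op V) :
    ‖U * w * star U‖ ≤ ‖w‖ := by
  calc ‖U * w * star U‖ ≤ ‖U * w‖ * ‖star U‖ := norm_mul_le _ _
    _ ≤ (‖U‖ * ‖w‖) * ‖star U‖ := mul_le_mul_of_nonneg_right (norm_mul_le _ _) (norm_nonneg _)
    _ ≤ (1 * ‖w‖) * 1 := mul_le_mul (mul_le_mul_of_nonneg_right h.norm_le (norm_nonneg _))
        h.norm_star_le (norm_nonneg _) (by positivity)
    _ = ‖w‖ := by ring

end P368M
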