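import Vale.Agent.P368M.Final

/-! Corollaries of `main` in the form of Moore's conjecture. -/

namespace P368M

open scoped Matrix.Norms.L2Operator
open P368

theorem norm_out {n : ℕ} {A : Type} [Fintype A] [DecidableEq A]
    (C : List (Layer (Fin n ⊕ A))) (hC : ∀ l ∈ C, l.Valid)
    (F : Fin n ⊕ A → Matrix Bool Bool ℂ) (hF : ∀ v, F v ∈ Matrix.unitaryGroup Bool ℂ)
    (α : Ket A) (hα : nsq α = 1) (x : Fin n → Bool) :
    ∑ z : Fin n ⊕ A → Bool, ‖oneQubit F (run C (start α x)) z‖ ^ 2 = 1 := by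
  obtain ⟨M, hM, hMv⟩ := circuit_matrix C hC F hF
  rw [hMv]
  have h1 : star (start α x) ⬝ᵥ ((star M * 1 * M).mulVec (start α x)) =
      ∑ z : Fin n ⊕ A → Bool, ((‖M.mulVec (start α x) z‖ ^ 2 : ℝ) : ℂ) := by
    have h2 : star (start α x) ⬝ᵥ ((star M * 1 * M).mulVec (start α x)) =
        star (M.mulVec (start α x)) ⬝ᵥ (M.mulVec (start α x)) := by
      rw [mul_one, Matrix.star_mulVec, ← Matrix.mulVec_mulVec,
        Matrix.dotProduct_mulVec (star (start α x)), Matrix.star_eq_conjTranspose]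
    rw [h2]
    refine Finset.sum_congr rfl fun z _ => ?_
    rw [← Complex.normSq_eq_norm_sq, Complex.normSq_eq_conj_mul_self]
    rfl
  rw [mul_one, hM.star_mul_self, Matrix.one_mulVec, ← Complex.ofReal_sum] at h1
  have h3 : star (start α x) ⬝ᵥ (start α x) = ((nsq (start α x) : ℝ) : ℂ) := by
    unfold nsq
    rw [Complex.ofReal_sum]
    refine Finset.sum_congr rfl fun z _ => ?_
    rw [← Complex.normSq_eq_norm_sq, Complex.normSq_eq_conj_mul_self]
    rfl
  rw [h3, nsq_start, hα] at h1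
  exact_mod_cast h1.symm

theorem prob_add {n : ℕ} {A : Type} [Fintype A] [DecidableEq A]
    (C : List (Layer (Fin n ⊕ A))) (hC : ∀ l ∈ C, l.Valid)
    (F : Fin n ⊕ A → Matrix Bool Bool ℂ) (hF : ∀ v, F v ∈ Matrix.unitaryGroup Bool ℂ)
    (o : Fin n ⊕ A) (α : Ket A) (hα : nsq α = 1) (x : Fin n → Bool) (r : Bool) :
    prob C F o α x r + prob C F o α x (!r) = 1 := by
  rw [← norm_out C hC F hF α hα x]
  unfold prob
  rw [← Finset.sum_add_distrib]
  refine Finset.sum_congr rfl fun z _ => ?_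
  cases h : z o <;> cases r <;> simp

/-- worst-case advantage `ε` gives correlation at least `2 ε` -/
theorem corr_ge {n : ℕ} {A : Type} [Fintype A] [DecidableEq A]
    (C : List (Layer (Fin n ⊕ A))) (hC : ∀ l ∈ C, l.Valid)
    (F : Fin n ⊕ A → Matrix Bool Bool ℂ) (hF : ∀ v, F v ∈ Matrix.unitaryGroup Bool ℂ)
    (o : Fin n ⊕ A) (α : Ket A) (hα : nsq α = 1) (ε : ℝ)
    (h : ∀ x : Fin n → Bool, 1 / 2 + ε ≤ prob C F o α x (par x)) :
    2 * ε ≤ corr C F o α := by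
  unfold corr
  rw [le_div_iff₀ (by positivity)]
  have h1 : ∀ x ∈ (Finset.univ : Finset (Fin n → Bool)),
      2 * ε ≤ prob C F o α x (par x) - prob C F o α x (!par x) := by
    intro x _
    have h2 := prob_add C hC F hF o α hα x (par x)
    have h3 := h x
    linarith
  have h4 := Finset.sum_le_sum h1
  simp only [Finset.sum_const, Finset.card_univ, Fintype.card_fun, Fintype.card_fin,
    Fintype.card_bool, nsmul_eq_mul] at h4
  push_cast at h4
  linarith

/-- polynomial size: the correlation is at most `exp (2 - n^(1-δ) / C)` -/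
theorem poly_size (d k : ℕ) (δ : ℝ) (hδ : 0 < δ) : ∃ C : ℝ, 0 < C ∧
    ∀ (n : ℕ) (A : Type) [Fintype A] [DecidableEq A], 1 ≤ n → Fintype.card A ≤ n ^ k →
    ∀ (α : Ket A), nsq α = 1 →
    ∀ (L : List (Layer (Fin n ⊕ A))) (F : Fin n ⊕ A → Matrix Bool Bool ℂ) (o : Fin n ⊕ A),
      L.length ≤ d → (∀ l ∈ L, l.Valid) → (∀ v, F v ∈ Matrix.unitaryGroup Bool ℂ) →
      |corr L F o α| ≤ Real.exp (2 - (n : ℝ) ^ (1 - δ) / C) := by
  have hk : (0 : ℝ) < k + 1 := by positivity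
  obtain ⟨C, hC, h⟩ := main d (δ / (k + 1)) (by positivity)
  refine ⟨C * 2 ^ (δ / (k + 1)), by positivity, ?_⟩
  intro n A _ _ hn hA α hα L F o hL hval hF
  refine (h n A α hα L F o hL hval hF).trans (Real.exp_le_exp.2 ?_)
  have hn0 : (0 : ℝ) < n := by exact_mod_cast hn
  have hn1 : (1 : ℝ) ≤ n := by exact_mod_cast hn
  have h1 : (n : ℝ) + Fintype.card A ≤ 2 * (n : ℝ) ^ ((k : ℝ) + 1) := by
    have h2 : (Fintype.card A : ℝ) ≤ (n : ℝ) ^ k := by exact_mod_cast hA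
    have h3 : (n : ℝ) ^ k ≤ (n : ℝ) ^ (k + 1) := pow_le_pow_right₀ hn1 (by omega)
    have h4 : (n : ℝ) ≤ (n : ℝ) ^ (k + 1) := by
      calc (n : ℝ) = (n : ℝ) ^ 1 := (pow_one _).symm
        _ ≤ (n : ℝ) ^ (k + 1) := pow_le_pow_right₀ hn1 (by omega)
    have h5 : (n : ℝ) ^ ((k : ℝ) + 1) = (n : ℝ) ^ (k + 1) := by
      rw [← Nat.cast_succ, Real.rpow_natCast]
    rw [h5]
    linarith
  have h6 : ((n : ℝ) + Fintype.card A) ^ (δ / (k + 1)) ≤ 2 ^ (δ / (k + 1)) * (n : ℝ) ^ δ := by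
    calc ((n : ℝ) + Fintype.card A) ^ (δ / (k + 1))
        ≤ (2 * (n : ℝ) ^ ((k : ℝ) + 1)) ^ (δ / (k + 1)) :=
          Real.rpow_le_rpow (by positivity) h1 (by positivity)
      _ = 2 ^ (δ / (k + 1)) * (n : ℝ) ^ δ := by
          rw [Real.mul_rpow (by norm_num) (by positivity), ← Real.rpow_mul hn0.le]
          congr 2
          field_simp
  have h7 : (n : ℝ) ^ (1 - δ) / (C * 2 ^ (δ / (k + 1))) =
      n / (C * (2 ^ (δ / (k + 1)) * (n : ℝ) ^ δ)) := by
    rw [Real.rpow_sub hn0, Real.rpow_one]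
    field_simp
  rw [h7]
  have h8 : (n : ℝ) / (C * (2 ^ (δ / (k + 1)) * (n : ℝ) ^ δ)) ≤
      n / (C * ((n : ℝ) + Fintype.card A) ^ (δ / (k + 1))) := by
    apply div_le_div_of_nonneg_left hn0.le
    · positivity
    · exact mul_le_mul_of_nonneg_left h6 hC.le
  linarith

/-- no polynomial-size constant-depth family has a fixed worst-case advantage -/
theorem no_family (d k : ℕ) (ε : ℝ) (hε : 0 < ε) : ∃ n₀ : ℕ, ∀ n : ℕ, n₀ ≤ n →
    ∀ (A : Type) [Fintype A] [DecidableEq A], Fintype.card A ≤ n ^ k →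
    ∀ (α : Ket A), nsq α = 1 →
    ∀ (L : List (Layer (Fin n ⊕ A))) (F : Fin n ⊕ A → Matrix Bool Bool ℂ) (o : Fin n ⊕ A),
      L.length ≤ d → (∀ l ∈ L, l.Valid) → (∀ v, F v ∈ Matrix.unitaryGroup Bool ℂ) →
      ∃ x : Fin n → Bool, prob L F o α x (par x) < 1 / 2 + ε := by
  obtain ⟨C, hC, h⟩ := poly_size d k (1 / 2) (by norm_num)
  have ht : Filter.Tendsto (fun n : ℕ => Real.exp (2 - (n : ℝ) ^ (1 - (1 / 2 : ℝ)) / C))
      Filter.atTop (nhds 0) := by
    refine Real.tendsto_exp_atBot.comp ?_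
    have h1 : Filter.Tendsto (fun n : ℕ => (n : ℝ) ^ (1 - (1 / 2 : ℝ)) / C)
        Filter.atTop Filter.atTop :=
      ((tendsto_rpow_atTop (by norm_num)).comp tendsto_natCast_atTop_atTop).atTop_div_const hC
    exact Filter.tendsto_atBot_add_const_left _ _ (Filter.tendsto_neg_atTop_atBot.comp h1)
  have h2 := (ht.eventually (gt_mem_nhds (show (0 : ℝ) < 2 * ε by linarith)))
  obtain ⟨n₁, hn₁⟩ := Filter.eventually_atTop.1 h2
  refine ⟨max n₁ 1, fun n hn A _ _ hA α hα L F o hL hval hF => ?_⟩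
  by_contra hcon
  push Not at hcon
  have h3 := corr_ge L hval F hF o α hα ε hcon
  have h4 := h n A (le_trans (le_max_right _ _) hn) hA α hα L F o hL hval hF
  have h5 := hn₁ n (le_trans (le_max_left _ _) hn)
  have h6 := le_abs_self (corr L F o α)
  linarith

end P368M
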