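import Vale.Agent.P368M.Supp
import Vale.Agent.P368.Defs

/-! Module NRMF (helper33): Cauchy-Schwarz for a form. -/

namespace P368M

open scoped Matrix.Norms.L2Operator
open P368

/-- Cauchy-Schwarz for a form -/
theorem form_le' {V : Type} [Fintype V] [DecidableEq V] (X : Op V) (u v : Ket V) :
    ‖star u ⬝ᵥ (X.mulVec v)‖ ≤ ‖X‖ * (√(nsq u) * √(nsq v)) := by
  have hn : ∀ w : Ket V, ‖(WithLp.toLp 2 w : EuclideanSpace ℂ (V → Bool))‖ = √(nsq w) := by
    intro w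
    rw [EuclideanSpace.norm_eq]
    rfl
  have h1 : star u ⬝ᵥ (X.mulVec v) = inner ℂ (WithLp.toLp 2 u : EuclideanSpace ℂ (V → Bool))
      (WithLp.toLp 2 (X.mulVec v) : EuclideanSpace ℂ (V → Bool)) := by
    rw [EuclideanSpace.inner_eq_star_dotProduct, dotProduct_comm]
  rw [h1]
  refine (norm_inner_le_norm _ _).trans ?_
  rw [hn u]
  have h2 := Matrix.l2_opNorm_mulVec X (WithLp.toLp 2 v : EuclideanSpace ℂ (V → Bool))
  rw [hn v] at h2
  have h3 : 0 ≤ √(nsq u) := Real.sqrt_nonneg _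
  calc √(nsq u) * ‖(WithLp.toLp 2 (X.mulVec v) : EuclideanSpace ℂ (V → Bool))‖
      ≤ √(nsq u) * (‖X‖ * √(nsq v)) := by
        apply mul_le_mul_of_nonneg_left _ h3
        exact h2
    _ = ‖X‖ * (√(nsq u) * √(nsq v)) := by ring

end P368M
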