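import Vale.Agent.P368M.Supp
import Vale.Agent.P368.Defs

/-! Module PARID: the Hadamard identity for the parity sum.

`parity_identity`: put `v'_y = (√2)^(-n) ∑_x (-1)^(x·y) start α x`.  Then
`tens (rot y) *ᵥ start α (all true) = v'_y`, `tens (rot y) *ᵥ start α (all false) = v'_(not y)`,
and `∑_y ⟨v'_(not y), O v'_y⟩ = 2^(-n) ∑_{x,x'} (∑_y (-1)^(x·(not y) + x'·y)) ⟨x, O x'⟩`
`= ∑_x (-1)^|x| ⟨x, O x⟩`. -/

namespace P368M

open scoped Matrix.Norms.L2Operator
open P368

variable {n : ℕ} {A : Type} [Fintype A] [DecidableEq A]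

/-- the Hadamard matrix -/
noncomputable def Hd : Matrix Bool Bool ℂ :=
  fun a b => (if a = true ∧ b = true then (-1 : ℂ) else 1) / (√2 : ℝ)

/-- maps `true` to the Hadamard transform of `y i`, `false` to that of `!(y i)`, on the inputs -/
noncomputable def rot (y : Fin n → Bool) : Fin n ⊕ A → Matrix Bool Bool ℂ :=
  Sum.elim (fun i => fun a b => Hd a (if b = true then y i else !(y i))) (fun _ => 1)

private theorem pi_sqrt_sq : ((√2 : ℝ) : ℂ) * ((√2 : ℝ) : ℂ) = 2 := by
  rw [← Complex.ofReal_mul, Real.mul_self_sqrt (by norm_num)]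
  norm_num

private theorem pi_sqrt_ne : ((√2 : ℝ) : ℂ) ≠ 0 := by
  intro h
  have := pi_sqrt_sq
  rw [h] at this
  norm_num at this

private theorem pi_Hd_mul (a b c d : Bool) : Hd a b * Hd c d =
    (if a = true ∧ b = true then (-1 : ℂ) else 1) * (if c = true ∧ d = true then (-1 : ℂ) else 1)
      / 2 := by
  unfold Hd
  rw [div_mul_div_comm, pi_sqrt_sq]

private theorem pi_Hd_star (a b : Bool) : star (Hd a b) = Hd a b := by
  unfold Hd
  rw [star_div₀]
  have h1 : star ((√2 : ℝ) : ℂ) = ((√2 : ℝ) : ℂ) := Complex.conj_ofReal _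
  rw [h1]
  split_ifs <;> simp

theorem rot_uni (y : Fin n → Bool) : Uni (rot (A := A) y) := by
  intro s
  cases s with
  | inr a => exact one_mem _
  | inl i =>
    rw [Matrix.mem_unitaryGroup_iff]
    ext a b
    rw [Matrix.mul_apply, Fintype.sum_bool]
    show Hd a _ * star (Hd b _) + Hd a _ * star (Hd b _) = _
    rw [pi_Hd_star, pi_Hd_star, pi_Hd_mul, pi_Hd_mul]
    cases hy : y i <;> cases a <;> cases b <;> simp [Matrix.one_apply] <;> norm_num

/-- sign of the parity of `x` -/
def psg (x : Fin n → Bool) : ℂ := if par x = true then -1 else 1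

private theorem pi_psg (x : Fin n → Bool) : psg x = ∏ i, if x i = true then (-1 : ℂ) else 1 := by
  unfold psg par
  rw [Finset.prod_ite, Finset.prod_const, Finset.prod_const_one, mul_one]
  by_cases h : Odd (Finset.univ.filter fun i => x i = true).card
  · rw [h.neg_one_pow]
    simp [h]
  · rw [(Nat.not_odd_iff_even.1 h).neg_one_pow]
    simp [h]

/-- the rotated start vectors -/
private theorem pi_rot_start (y : Fin n → Bool) (α : Ket A) (c : Bool) :
    (tens (rot (A := A) y)).mulVec (start α (fun _ => c)) =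
      ∑ x : Fin n → Bool, (∏ i, Hd (x i) (if c = true then y i else !(y i))) • start α x := by
  funext z
  have hR : (∑ x : Fin n → Bool, (∏ i, Hd (x i) (if c = true then y i else !(y i))) •
      start α x) z = (∏ i, Hd (z (Sum.inl i)) (if c = true then y i else !(y i))) *
        α (fun a => z (Sum.inr a)) := by
    rw [Finset.sum_apply, Finset.sum_eq_single (fun i => z (Sum.inl i))]
    · simp [start]
    · intro x _ hx
      rw [Pi.smul_apply, start, if_neg (Ne.symm hx), smul_zero]
    · intro h
      exact absurd (Finset.mem_univ _) h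
  rw [hR]
  show ∑ z', tens (rot (A := A) y) z z' * start α (fun _ => c) z' = _
  rw [Finset.sum_eq_single (Sum.elim (fun _ => c) (fun a => z (Sum.inr a)))]
  · have h1 : start α (fun _ : Fin n => c) (Sum.elim (fun _ => c) (fun a => z (Sum.inr a))) =
        α (fun a => z (Sum.inr a)) := by
      simp [start]
    rw [h1]
    congr 1
    show ∏ s, rot y s (z s) (Sum.elim (fun _ => c) (fun a => z (Sum.inr a)) s) = _
    rw [Fintype.prod_sum_type]
    have h2 : ∏ a : A, rot y (Sum.inr a) (z (Sum.inr a))
        ((Sum.elim (fun _ => c) (fun a => z (Sum.inr a)) : Fin n ⊕ A → Bool) (Sum.inr a)) = 1 := by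
      apply Finset.prod_eq_one
      intro a _
      show (1 : Matrix Bool Bool ℂ) (z (Sum.inr a)) (z (Sum.inr a)) = 1
      exact Matrix.one_apply_eq _
    rw [h2, mul_one]
    rfl
  · intro z' _ hz'
    by_cases h1 : (fun i => z' (Sum.inl i)) = (fun _ : Fin n => c)
    · have h2 : ∃ a, z' (Sum.inr a) ≠ z (Sum.inr a) := by
        by_contra hcon
        push Not at hcon
        apply hz'
        funext s
        cases s with
        | inl i => exact congrFun h1 i
        | inr a => exact hcon a
      obtain ⟨a, ha⟩ := h2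
      have h3 : tens (rot (A := A) y) z z' = 0 := by
        apply Finset.prod_eq_zero (Finset.mem_univ (Sum.inr a))
        show (1 : Matrix Bool Bool ℂ) (z (Sum.inr a)) (z' (Sum.inr a)) = 0
        exact Matrix.one_apply_ne (Ne.symm ha)
      rw [h3, zero_mul]
    · rw [start, if_neg h1, mul_zero]
  · intro h
    exact absurd (Finset.mem_univ _) h

private theorem pi_char (x x' : Fin n → Bool) :
    ∑ y : Fin n → Bool, star (∏ i, Hd (x' i) (!(y i))) * ∏ i, Hd (x i) (y i) =
      if x' = x then psg x else 0 := by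
  have h1 : ∀ y : Fin n → Bool, star (∏ i, Hd (x' i) (!(y i))) * ∏ i, Hd (x i) (y i) =
      ∏ i, Hd (x' i) (!(y i)) * Hd (x i) (y i) := by
    intro y
    rw [Finset.prod_mul_distrib]
    congr 1
    rw [star_prod]
    exact Finset.prod_congr rfl fun i _ => pi_Hd_star _ _
  simp_rw [h1]
  have h2 := Finset.prod_univ_sum (fun _ : Fin n => (Finset.univ : Finset Bool))
    (fun i b => Hd (x' i) (!b) * Hd (x i) b)
  rw [Fintype.piFinset_univ] at h2
  rw [← h2]
  have h3 : ∀ i, ∑ b : Bool, Hd (x' i) (!b) * Hd (x i) b =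
      if x' i = x i then (if x i = true then (-1 : ℂ) else 1) else 0 := by
    intro i
    rw [Fintype.sum_bool, pi_Hd_mul, pi_Hd_mul]
    cases x' i <;> cases x i <;> simp <;> norm_num
  simp_rw [h3]
  by_cases h : x' = x
  · rw [if_pos h, pi_psg]
    subst h
    simp
  · rw [if_neg h]
    obtain ⟨i, hi⟩ := Function.ne_iff.1 h
    apply Finset.prod_eq_zero (Finset.mem_univ i)
    rw [if_neg hi]

theorem parity_identity (O : Op (Fin n ⊕ A)) (α : Ket A) :
    ∑ x : Fin n → Bool, psg x * (star (start α x) ⬝ᵥ (O.mulVec (start α x))) =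
      ∑ y : Fin n → Bool, (star (start α (fun _ => false)) ⬝ᵥ
        ((star (tens (rot y)) * O * tens (rot y)).mulVec (start α (fun _ => true)))) := by
  have h1 : ∀ y : Fin n → Bool, (star (start α (fun _ => false)) ⬝ᵥ
        ((star (tens (rot y)) * O * tens (rot y)).mulVec (start α (fun _ => true)))) =
      ∑ x' : Fin n → Bool, ∑ x : Fin n → Bool,
        (star (∏ i, Hd (x' i) (!(y i))) * ∏ i, Hd (x i) (y i)) *
          (star (start α x') ⬝ᵥ (O.mulVec (start α x))) := by
    intro y
    have h2 : (star (start α (fun _ => false)) ⬝ᵥ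
        ((star (tens (rot y)) * O * tens (rot y)).mulVec (start α (fun _ => true)))) =
        star ((tens (rot y)).mulVec (start α (fun _ => false))) ⬝ᵥ
          (O.mulVec ((tens (rot y)).mulVec (start α (fun _ => true)))) := by
      rw [Matrix.star_mulVec, ← Matrix.mulVec_mulVec, ← Matrix.mulVec_mulVec,
        Matrix.dotProduct_mulVec (star (start α (fun _ => false))), Matrix.star_eq_conjTranspose]
    rw [h2, pi_rot_start y α false, pi_rot_start y α true]
    simp only [if_true, Bool.false_eq_true, if_false]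
    rw [star_sum, sum_dotProduct]
    refine Finset.sum_congr rfl fun x' _ => ?_
    rw [Matrix.mulVec_sum, dotProduct_sum]
    refine Finset.sum_congr rfl fun x _ => ?_
    rw [Matrix.mulVec_smul, star_smul, smul_dotProduct, dotProduct_smul, smul_eq_mul, smul_eq_mul,
      mul_assoc]
  simp_rw [h1]
  rw [Finset.sum_comm]
  have h3 : ∀ x' : Fin n → Bool, ∑ y : Fin n → Bool, ∑ x : Fin n → Bool,
        (star (∏ i, Hd (x' i) (!(y i))) * ∏ i, Hd (x i) (y i)) *
          (star (start α x') ⬝ᵥ (O.mulVec (start α x))) =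
      psg x' * (star (start α x') ⬝ᵥ (O.mulVec (start α x'))) := by
    intro x'
    rw [Finset.sum_comm]
    have h4 : ∀ x : Fin n → Bool, ∑ y : Fin n → Bool,
        (star (∏ i, Hd (x' i) (!(y i))) * ∏ i, Hd (x i) (y i)) *
          (star (start α x') ⬝ᵥ (O.mulVec (start α x))) =
        (if x' = x then psg x else 0) * (star (start α x') ⬝ᵥ (O.mulVec (start α x))) := by
      intro x
      rw [← Finset.sum_mul, pi_char]
    simp_rw [h4]
    rw [Finset.sum_eq_single x']
    · rw [if_pos rfl]
    · intro x _ hx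
      rw [if_neg (Ne.symm hx), zero_mul]
    · intro h
      exact absurd (Finset.mem_univ _) h
  exact (Finset.sum_congr rfl fun x' _ => h3 x').symm

end P368M
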