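import Vale.Agent.P368M.Bridge
import Vale.Agent.P368M.Parity
import Vale.Agent.P368M.NormForm

/-! Module CORREQ: `corr_eq`, `nsq_start`, `corr_le_one`.

`corr_eq`: with `M` from `circuit_matrix`, `O = star M * Z * M`, `Z = diagonal (±1 by bit o)`,
`prob .. x false - prob .. x true = ⟨start α x, O (start α x)⟩`, hence
`corr = 2^(-n) ∑_x psg x ⟨start α x, O start α x⟩`.
`corr_le`: `parity_identity`; every term is `⟨u, X v⟩` with `X = star (tens (rot y)) * O * tens (rot y)
= U * Z * star U`, `U = star (tens (rot y)) * star M ∈ Circ`; with `S` = the inputs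
`v = le S 0 *ᵥ v`, `u = ge S n *ᵥ u` (as `ge S n`, `le S 0` are diagonal), so
`⟨u, X v⟩ = ⟨u, (ge S n * X * le S 0) v⟩`; `form_le`, `SuppIn.bit`, `Spread` with `T = {o}`,
`m = 0`. -/

namespace P368M

open scoped Matrix.Norms.L2Operator
open P368

variable {n : ℕ} {A : Type} [Fintype A] [DecidableEq A]

/-- the measured observable -/
noncomputable def obs {V : Type} [Fintype V] [DecidableEq V] (o : V) : Op V :=
  Matrix.diagonal fun x => if x o = true then (-1) else 1

/-- the quadratic form of the observable -/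
private theorem ce_form {V : Type} [Fintype V] [DecidableEq V] (o : V) (M : Op V) (ψ : Ket V) :
    star ψ ⬝ᵥ ((star M * obs o * M).mulVec ψ) =
      ∑ z : V → Bool, ((if z o = true then (-1 : ℝ) else 1) * ‖M.mulVec ψ z‖ ^ 2 : ℝ) := by
  have h1 : star ψ ⬝ᵥ ((star M * obs o * M).mulVec ψ) =
      star (M.mulVec ψ) ⬝ᵥ ((obs o).mulVec (M.mulVec ψ)) := by
    rw [Matrix.star_mulVec, ← Matrix.mulVec_mulVec, ← Matrix.mulVec_mulVec,
      Matrix.dotProduct_mulVec (star ψ), Matrix.star_eq_conjTranspose]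
  rw [h1]
  push_cast
  refine Finset.sum_congr rfl fun z _ => ?_
  rw [obs, Matrix.mulVec_diagonal]
  have h2 : ((‖M.mulVec ψ z‖ : ℝ) : ℂ) ^ 2 = star (M.mulVec ψ z) * M.mulVec ψ z := by
    rw [← Complex.ofReal_pow, ← Complex.normSq_eq_norm_sq, Complex.normSq_eq_conj_mul_self]
    rfl
  show star (M.mulVec ψ z) * _ = _
  split_ifs with h
  · push_cast
    rw [h2]
    ring
  · push_cast
    rw [h2]
    ring

private theorem ce_prob (C : List (Layer (Fin n ⊕ A))) (F : Fin n ⊕ A → Matrix Bool Bool ℂ)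
    (o : Fin n ⊕ A) (α : Ket A) (x : Fin n → Bool) :
    prob C F o α x false - prob C F o α x true = ∑ z : Fin n ⊕ A → Bool,
      (if z o = true then (-1 : ℝ) else 1) * ‖oneQubit F (run C (start α x)) z‖ ^ 2 := by
  unfold prob
  rw [← Finset.sum_sub_distrib]
  refine Finset.sum_congr rfl fun z _ => ?_
  cases h : z o <;> simp

private theorem ce_term (C : List (Layer (Fin n ⊕ A))) (F : Fin n ⊕ A → Matrix Bool Bool ℂ)
    (o : Fin n ⊕ A) (α : Ket A) (x : Fin n → Bool) :
    prob C F o α x (par x) - prob C F o α x (!par x) =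
      (if par x = true then (-1 : ℝ) else 1) *
        (prob C F o α x false - prob C F o α x true) := by
  cases h : par x <;> simp

theorem corr_eq (C : List (Layer (Fin n ⊕ A))) (F : Fin n ⊕ A → Matrix Bool Bool ℂ)
    (o : Fin n ⊕ A) (α : Ket A) (M : Op (Fin n ⊕ A))
    (hM : ∀ ψ : Ket (Fin n ⊕ A), oneQubit F (run C ψ) = M.mulVec ψ) :
    ((corr C F o α : ℝ) : ℂ) =
      (∑ x : Fin n → Bool, psg x *
        (star (start α x) ⬝ᵥ ((star M * obs o * M).mulVec (start α x)))) / 2 ^ n := by
  unfold corr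
  rw [Complex.ofReal_div, Complex.ofReal_pow, Complex.ofReal_ofNat, Complex.ofReal_sum]
  congr 1
  refine Finset.sum_congr rfl fun x _ => ?_
  rw [ce_term, ce_prob, ce_form, Complex.ofReal_mul, Complex.ofReal_sum]
  congr 1
  · unfold psg
    split_ifs <;> simp
  · rw [hM, Complex.ofReal_sum]

theorem nsq_start (α : Ket A) (x : Fin n → Bool) : nsq (start α x) = nsq α := by
  unfold nsq
  have h1 : ∀ z : Fin n ⊕ A → Bool, ‖start α x z‖ ^ 2 =
      if (fun i => z (Sum.inl i)) = x then ‖α (fun a => z (Sum.inr a))‖ ^ 2 else 0 := by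
    intro z
    unfold start
    split_ifs <;> simp
  simp_rw [h1]
  rw [← Equiv.sum_comp (Equiv.sumArrowEquivProdArrow (Fin n) A Bool).symm
    (fun z : Fin n ⊕ A → Bool =>
      if (fun i => z (Sum.inl i)) = x then ‖α (fun a => z (Sum.inr a))‖ ^ 2 else 0),
    Fintype.sum_prod_type]
  rw [Finset.sum_eq_single x]
  · refine Finset.sum_congr rfl fun z _ => ?_
    rw [if_pos]
    · rfl
    · rfl
  · intro y _ hy
    apply Finset.sum_eq_zero
    intro z _
    rw [if_neg]
    exact hy
  · intro h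
    exact absurd (Finset.mem_univ _) h

/-- trivial bound -/
theorem corr_le_one (C : List (Layer (Fin n ⊕ A))) (hC : ∀ l ∈ C, l.Valid)
    (F : Fin n ⊕ A → Matrix Bool Bool ℂ) (hF : ∀ v, F v ∈ Matrix.unitaryGroup Bool ℂ)
    (o : Fin n ⊕ A) (α : Ket A) (hα : nsq α = 1) : |corr C F o α| ≤ 1 := by
  obtain ⟨M, hM, hMv⟩ := circuit_matrix C hC F hF
  have hnorm : ∀ x : Fin n → Bool,
      ∑ z : Fin n ⊕ A → Bool, ‖oneQubit F (run C (start α x)) z‖ ^ 2 = 1 := by
    intro x
    rw [hMv]
    have h1 : star (start α x) ⬝ᵥ ((star M * 1 * M).mulVec (start α x)) =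
        ∑ z : Fin n ⊕ A → Bool, ((‖M.mulVec (start α x) z‖ ^ 2 : ℝ) : ℂ) := by
      have h2 : star (start α x) ⬝ᵥ ((star M * 1 * M).mulVec (start α x)) =
          star (M.mulVec (start α x)) ⬝ᵥ (M.mulVec (start α x)) := by
        rw [mul_one, Matrix.star_mulVec, ← Matrix.mulVec_mulVec,
          Matrix.dotProduct_mulVec (star (start α x)), Matrix.star_eq_conjTranspose]
      rw [h2]
      refine Finset.sum_congr rfl fun z _ => ?_
      rw [← Complex.normSq_eq_norm_sq, Complex.normSq_eq_conj_mul_self]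
      rfl
    rw [mul_one, hM.star_mul_self, Matrix.one_mulVec, ← Complex.ofReal_sum] at h1
    have h3 : star (start α x) ⬝ᵥ (start α x) = ((nsq (start α x) : ℝ) : ℂ) := by
      unfold nsq
      rw [Complex.ofReal_sum]
      refine Finset.sum_congr rfl fun z _ => ?_
      rw [← Complex.normSq_eq_norm_sq, Complex.normSq_eq_conj_mul_self]
      rfl
    rw [h3, nsq_start, hα] at h1
    exact_mod_cast h1.symm
  unfold corr
  rw [abs_div, abs_of_pos (show (0:ℝ) < 2 ^ n by positivity), div_le_one (by positivity)]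
  refine (Finset.abs_sum_le_sum_abs _ _).trans ?_
  have h4 : ∀ x : Fin n → Bool, |prob C F o α x (par x) - prob C F o α x (!par x)| ≤ 1 := by
    intro x
    rw [ce_term, abs_mul, ce_prob]
    have h5 : |(if par x = true then (-1 : ℝ) else 1)| = 1 := by split_ifs <;> simp
    rw [h5, one_mul]
    refine le_trans ?_ (hnorm x).le
    refine (Finset.abs_sum_le_sum_abs _ _).trans (Finset.sum_le_sum fun z _ => ?_)
    rw [abs_mul]
    have h6 : |(if z o = true then (-1 : ℝ) else 1)| = 1 := by split_ifs <;> simp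
    rw [h6, one_mul, abs_of_nonneg (by positivity)]
  refine (Finset.sum_le_sum fun x _ => h4 x).trans ?_
  simp

end P368M
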