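import Vale.Agent.P368M.Corr

/-! Module CORRLE: see the header of Corr.lean for the proof. -/

namespace P368M

open scoped Matrix.Norms.L2Operator
open P368

variable {n : ℕ} {A : Type} [Fintype A] [DecidableEq A]

private theorem cl_diag (f : (Fin n ⊕ A → Bool) → ℂ) (α : Ket A) (c : Bool)
    (hf : ∀ z : Fin n ⊕ A → Bool, (∀ i, z (Sum.inl i) = c) → f z = 1) :
    (Matrix.diagonal f).mulVec (start α (fun _ : Fin n => c)) = start α (fun _ => c) := by
  funext z
  rw [Matrix.mulVec_diagonal]
  unfold start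
  split_ifs with h
  · rw [hf z (fun i => congrFun h i), one_mul]
  · rw [mul_zero]

omit [Fintype A] in
private theorem cl_cnt (z : Fin n ⊕ A → Bool) (c : Bool) (h : ∀ i, z (Sum.inl i) = c) :
    cnt (Finset.univ.image (Sum.inl : Fin n → Fin n ⊕ A)) z = if c = false then n else 0 := by
  unfold cnt
  split_ifs with hc
  · rw [Finset.filter_true_of_mem, Finset.card_image_of_injective _ Sum.inl_injective,
      Finset.card_univ, Fintype.card_fin]
    intro s hs
    obtain ⟨i, -, rfl⟩ := Finset.mem_image.1 hs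
    rw [h i, hc]
  · rw [Finset.card_eq_zero, Finset.filter_eq_empty_iff]
    intro s hs
    obtain ⟨i, -, rfl⟩ := Finset.mem_image.1 hs
    rw [h i]
    exact hc

private theorem cl_term {t : ℕ} {L : ℝ} (hS : Spread (Fin n ⊕ A) t L) {M : Op (Fin n ⊕ A)}
    (hM : Circ t M) (o : Fin n ⊕ A) (α : Ket A) (hα : nsq α = 1) (B : ℝ) (hB : 1 ≤ B)
    (hn : L * (1 + B) ≤ n) (y : Fin n → Bool) :
    ‖star (start α (fun _ => false)) ⬝ᵥ
        ((star (tens (rot y)) * (star M * obs o * M) * tens (rot y)).mulVec
          (start α (fun _ => true)))‖ ≤ Real.exp (-B) := by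
  obtain ⟨U, hU⟩ : ∃ U : Op (Fin n ⊕ A), U = star (tens (rot y)) * star M := ⟨_, rfl⟩
  have hUc : Circ t U := by
    rw [hU, star_tens]
    exact hM.adj.tens_mul (rot_uni y).adj
  have hX : star (tens (rot y)) * (star M * obs o * M) * tens (rot y) = U * obs o * star U := by
    rw [hU, star_mul, star_star, star_star]
    simp only [mul_assoc]
  rw [hX]
  obtain ⟨S, hSd⟩ : ∃ S : Finset (Fin n ⊕ A), S = Finset.univ.image Sum.inl := ⟨_, rfl⟩
  have hv : (le S 0).mulVec (start α (fun _ : Fin n => true)) = start α (fun _ => true) := by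
    unfold le
    apply cl_diag
    intro z hz
    rw [hSd, cl_cnt z true hz]
    simp
  have hu : (ge S n).mulVec (start α (fun _ : Fin n => false)) = start α (fun _ => false) := by
    unfold ge
    apply cl_diag
    intro z hz
    rw [hSd, cl_cnt z false hz]
    simp
  have h1 : star (start α (fun _ : Fin n => false)) ⬝ᵥ
        ((U * obs o * star U).mulVec (start α (fun _ => true))) =
      star (start α (fun _ : Fin n => false)) ⬝ᵥ
        ((ge S n * (U * obs o * star U) * le S 0).mulVec (start α (fun _ => true))) := by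
    rw [← Matrix.mulVec_mulVec _ (ge S n * (U * obs o * star U)) (le S 0), hv,
      ← Matrix.mulVec_mulVec _ (ge S n), Matrix.dotProduct_mulVec _ (ge S n)]
    have h2 : Matrix.vecMul (star (start α (fun _ : Fin n => false))) (ge S n) =
        star (start α (fun _ => false)) := by
      conv_rhs => rw [← hu]
      rw [Matrix.star_mulVec, ← Matrix.star_eq_conjTranspose, star_ge]
    rw [h2]
  rw [h1]
  refine (form_le' _ _ _).trans ?_
  rw [nsq_start, nsq_start, hα, Real.sqrt_one, mul_one, mul_one]
  refine hS U hUc S {o} (obs o) ?_ ?_ 0 n B hB ?_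
  · exact SuppIn.bit o (fun b => if b = true then (-1 : ℂ) else 1)
  · refine norm_diag_le _ zero_le_one fun x => ?_
    split_ifs <;> simp
  · rw [Finset.card_singleton]
    push_cast
    rw [zero_add]
    exact hn

theorem corr_le {t : ℕ} {L : ℝ} (hS : Spread (Fin n ⊕ A) t L) {M : Op (Fin n ⊕ A)}
    (hM : Circ t M) (o : Fin n ⊕ A) (α : Ket A) (hα : nsq α = 1) (B : ℝ) (hB : 1 ≤ B)
    (hn : L * (1 + B) ≤ n) :
    ‖∑ x : Fin n → Bool, psg x *
        (star (start α x) ⬝ᵥ ((star M * obs o * M).mulVec (start α x)))‖ ≤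
      2 ^ n * Real.exp (-B) := by
  rw [parity_identity]
  refine (norm_sum_le _ _).trans ?_
  refine (Finset.sum_le_sum fun y _ => cl_term hS hM o α hα B hB hn y).trans ?_
  rw [Finset.sum_const, Finset.card_univ, Fintype.card_fun, Fintype.card_bool, Fintype.card_fin,
    nsmul_eq_mul]
  push_cast
  exact le_rfl

end P368M
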