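import Mathlib

/-! # P368M: definitions for the proof of Moore's conjecture (see MOORE.md)

`Op V` = matrices indexed by the basis strings `V → Bool`, with the L2 operator norm. -/

namespace P368M

open scoped Matrix.Norms.L2Operator

/-- operators on the qubits `V` -/
abbrev Op (V : Type) : Type := Matrix (V → Bool) (V → Bool) ℂ

/-- number of `false` bits of `x` inside `S` -/
def cnt {V : Type} (S : Finset V) (x : V → Bool) : ℕ := (S.filter (fun i => x i = false)).card

section
variable {V : Type} [Fintype V] [DecidableEq V]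

/-- at least `k` false bits in `S` -/
noncomputable def ge (S : Finset V) (k : ℕ) : Op V :=
  Matrix.diagonal fun x => if k ≤ cnt S x then 1 else 0

/-- at most `m` false bits in `S` -/
noncomputable def le (S : Finset V) (m : ℕ) : Op V :=
  Matrix.diagonal fun x => if cnt S x ≤ m then 1 else 0

/-- all bits in `S` are true -/
noncomputable def pr (S : Finset V) : Op V :=
  Matrix.diagonal fun x => if ∀ i ∈ S, x i = true then 1 else 0

/-- all bits in `S` are false -/
noncomputable def qf (S : Finset V) : Op V :=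
  Matrix.diagonal fun x => if ∀ i ∈ S, x i = false then 1 else 0

/-- the product operator -/
noncomputable def tens (W : V → Matrix Bool Bool ℂ) : Op V :=
  fun x y => ∏ i, W i (x i) (y i)

/-- the product of the reflections `1 - 2 pr S`, `S ∈ 𝒮` -/
noncomputable def sgn (𝒮 : Finset (Finset V)) : Op V :=
  Matrix.diagonal fun x => ∏ S ∈ 𝒮, if ∀ i ∈ S, x i = true then (-1) else 1

/-- all one-qubit factors are unitary -/
def Uni (W : V → Matrix Bool Bool ℂ) : Prop := ∀ i, W i ∈ Matrix.unitaryGroup Bool ℂ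

/-- circuits with `t` layers of (conjugated) reflections -/
inductive Circ : ℕ → Op V → Prop
  | zero (W : V → Matrix Bool Bool ℂ) (hW : Uni W) : Circ 0 (tens W)
  | succ (t : ℕ) (U : Op V) (𝒮 : Finset (Finset V)) (W : V → Matrix Bool Bool ℂ)
      (hU : Circ t U) (h𝒮 : (𝒮 : Set (Finset V)).PairwiseDisjoint id) (hW : Uni W) :
      Circ (t + 1) (U * sgn 𝒮 * tens W)

/-- `w` acts only on the qubits in `T` -/
def SuppIn (T : Finset V) (w : Op V) : Prop :=
  ∀ W : V → Matrix Bool Bool ℂ, (∀ i ∈ T, W i = 1) → w * tens W = tens W * w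

variable (V) in
/-- `log (2N+2)` -/
noncomputable def lam : ℝ := Real.log (2 * Fintype.card V + 2)

variable (V) in
/-- the spreading bound for circuits of depth `t` -/
def Spread (t : ℕ) (L : ℝ) : Prop :=
  ∀ (U : Op V), Circ t U → ∀ (S T : Finset V) (w : Op V), SuppIn T w → ‖w‖ ≤ 1 →
    ∀ (m x : ℕ) (B : ℝ), 1 ≤ B → L * (m + T.card + B) ≤ x →
      ‖ge S x * (U * w * star U) * le S m‖ ≤ Real.exp (-B)

variable (V) in
/-- the tail bound for one gate -/
def TailB (t : ℕ) (b : ℝ) (x : ℕ) : Prop :=
  ∀ (U : Op V), Circ t U → ∀ (S S' : Finset V),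
    ‖ge S x * (U * pr S' * star U) * pr S‖ ≤ Real.exp (-b)

variable (V) in
/-- tail bound with cutoff `m` in place of `0` -/
def TailM (t : ℕ) (Λ : ℝ) : Prop :=
  ∀ (U : Op V), Circ t U → ∀ (S S' : Finset V) (m x : ℕ) (b : ℝ), 1 ≤ b →
    Λ * (m + b) ≤ x → ‖ge S x * (U * pr S' * star U) * le S m‖ ≤ Real.exp (-b)

end

end P368M
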