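import Vale.Agent.P368M.Asym
import Vale.Agent.P368M.CorrLe

/-! Module FINAL: `circuit_matrix`, `corr_eq`, `corr_le`, `spread_all` for every `t ≤ d`
(take the sum of the constants), `B = n/L - 1`, and `corr_le_one` when `B < 1`. -/

namespace P368M

open scoped Matrix.Norms.L2Operator
open P368

/-- one constant for all depths up to `d` -/
theorem spread_upto (d : ℕ) (η : ℝ) (hη : 0 < η) : ∃ C : ℝ, 1 ≤ C ∧ ∀ t ≤ d,
    ∀ (V : Type) [Fintype V] [DecidableEq V] [Nonempty V],
      Spread V t (C * (Fintype.card V : ℝ) ^ η) := by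
  have h := fun t => spread_all t η hη
  choose C hC1 hC using h
  refine ⟨∑ t ∈ Finset.range (d + 1), C t, ?_, ?_⟩
  · calc (1 : ℝ) ≤ C 0 := hC1 0
      _ ≤ ∑ t ∈ Finset.range (d + 1), C t :=
        Finset.single_le_sum (f := C) (fun t _ => zero_le_one.trans (hC1 t))
          (Finset.mem_range.2 (by omega))
  · intro t ht V _ _ _
    refine (hC t V).mono ?_
    refine mul_le_mul_of_nonneg_right ?_ (Real.rpow_nonneg (Nat.cast_nonneg _) _)
    exact Finset.single_le_sum (f := C) (fun t _ => zero_le_one.trans (hC1 t))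
      (Finset.mem_range.2 (by omega))

/-- MAIN THEOREM -/
theorem main (d : ℕ) (η : ℝ) (hη : 0 < η) : ∃ C : ℝ, 0 < C ∧
    ∀ (n : ℕ) (A : Type) [Fintype A] [DecidableEq A] (α : Ket A), nsq α = 1 →
    ∀ (L : List (Layer (Fin n ⊕ A))) (F : Fin n ⊕ A → Matrix Bool Bool ℂ) (o : Fin n ⊕ A),
      L.length ≤ d → (∀ l ∈ L, l.Valid) → (∀ v, F v ∈ Matrix.unitaryGroup Bool ℂ) →
      |corr L F o α| ≤ Real.exp (2 - n / (C * ((n : ℝ) + Fintype.card A) ^ η)) := by
  obtain ⟨C, hC1, hC⟩ := spread_upto d η hη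
  refine ⟨C, by linarith, ?_⟩
  intro n A _ _ α hα L F o hL hval hF
  have hne : Nonempty (Fin n ⊕ A) := ⟨o⟩
  obtain ⟨M, hM, hrun⟩ := circuit_matrix L hval F hF
  have hS := hC L.length hL (Fin n ⊕ A)
  have hcard : (Fintype.card (Fin n ⊕ A) : ℝ) = (n : ℝ) + Fintype.card A := by
    rw [Fintype.card_sum, Fintype.card_fin]
    push_cast
    ring
  rw [hcard] at hS
  have hpos : 0 < (n : ℝ) + Fintype.card A := by
    rw [← hcard]
    exact_mod_cast Fintype.card_pos
  set Λ := C * ((n : ℝ) + Fintype.card A) ^ η with hΛ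
  have hΛ0 : 0 < Λ := mul_pos (by linarith) (Real.rpow_pos_of_pos hpos _)
  rcases lt_or_ge ((n : ℝ) / Λ - 1) 1 with hB | hB
  · refine (corr_le_one L hval F hF o α hα).trans ?_
    rw [← Real.exp_zero]
    exact Real.exp_le_exp.2 (by linarith)
  · have hn : Λ * (1 + ((n : ℝ) / Λ - 1)) ≤ n := by
      have : Λ * (1 + ((n : ℝ) / Λ - 1)) = n := by
        field_simp
        ring
      exact this.le
    have h1 := corr_le hS hM o α hα ((n : ℝ) / Λ - 1) hB hn
    have h2 := corr_eq L F o α M hrun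
    have h3 : |corr L F o α| = ‖((corr L F o α : ℝ) : ℂ)‖ := by
      rw [Complex.norm_real, Real.norm_eq_abs]
    rw [h3, h2, norm_div, norm_pow, Complex.norm_ofNat, div_le_iff₀ (by positivity)]
    refine h1.trans ?_
    rw [mul_comm]
    refine mul_le_mul_of_nonneg_right (Real.exp_le_exp.2 (by linarith)) (by positivity)

end P368M
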