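import Vale.Agent.P368M.Boot

/-! Module ITER: iterate `boot_step` (see Boot.lean).
Show `TI V t i (2 * (12 * dd V L)^(i*(i+1)))` by induction on `i` (`TI` is monotone in `A`,
`1 ≤ dd V L`), then for `x ≥ M b`: `x^(K+1) ≥ M^(K+1) b^(K+1) ≥ A N b^K`. -/

namespace P368M

open scoped Matrix.Norms.L2Operator

variable {V : Type} [Fintype V] [DecidableEq V]

theorem iter_TI_mono {t i : ℕ} {A A' : ℝ} (h : TI V t i A) (hA : A ≤ A') : TI V t i A' := by
  intro b x hb hx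
  refine h b x hb (le_trans ?_ hx)
  have hb0 : (0 : ℝ) ≤ b ^ i := pow_nonneg (by linarith) i
  have hN : (0 : ℝ) ≤ (Fintype.card V : ℝ) := Nat.cast_nonneg _
  exact mul_le_mul_of_nonneg_right (mul_le_mul_of_nonneg_right hA hN) hb0

theorem iter_one_le_D [Nonempty V] {L : ℝ} (hL : 1 ≤ L) : 1 ≤ 12 * dd V L := by
  have hl : 1 ≤ lam V := lam_pos
  have h1 : 1 ≤ lam V ^ 2 := one_le_pow₀ hl
  have h2 : 1 ≤ 208 * L * lam V ^ 2 := by
    have : 1 ≤ L * lam V ^ 2 := one_le_mul_of_one_le_of_one_le hL h1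
    nlinarith
  have h3 : 1 ≤ dd V L := by
    unfold dd
    exact one_le_pow₀ h2
  linarith

theorem iter_TI [Nonempty V] {t : ℕ} {L : ℝ} (hL : 1 ≤ L) (hS : Spread V t L) (i : ℕ) :
    TI V t i (2 * (12 * dd V L) ^ (i * (i + 1))) := by
  have hD : 1 ≤ 12 * dd V L := iter_one_le_D hL
  induction i with
  | zero => simpa using (TI_zero (V := V) t)
  | succ i ih =>
    have hA : (1 : ℝ) ≤ 2 * (12 * dd V L) ^ (i * (i + 1)) := by
      have := one_le_pow₀ (n := i * (i + 1)) hD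
      linarith
    refine iter_TI_mono (boot_step hL hA hS ih) ?_
    have e1 : (12 * dd V L) ^ (i + 1) * (2 * (12 * dd V L) ^ (i * (i + 1)))
        = 2 * (12 * dd V L) ^ ((i + 1) * (i + 1)) := by
      have : (i + 1) * (i + 1) = (i + 1) + i * (i + 1) := by ring
      rw [this, pow_add]
      ring
    rw [e1]
    have h2 : (12 * dd V L) ^ ((i + 1) * (i + 1)) ≤ (12 * dd V L) ^ ((i + 1) * (i + 1 + 1)) :=
      pow_le_pow_right₀ hD (Nat.mul_le_mul_left _ (Nat.le_succ _))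
    linarith

/-- induction on `K`: `TI V t K (2 * (12 * dd)^(K*(K+1)))` -/
theorem tail_of_spread [Nonempty V] {t : ℕ} {L : ℝ} (hL : 1 ≤ L) (hS : Spread V t L)
    (K : ℕ) (M : ℝ) (hM : 1 ≤ M)
    (h : 2 * (12 * dd V L) ^ (K * (K + 1)) * Fintype.card V ≤ M ^ (K + 1)) :
    ∀ (b : ℝ) (x : ℕ), 1 ≤ b → M * b ≤ x → TailB V t b x := by
  intro b x hb hx
  refine iter_TI hL hS K b x hb ?_
  have hb0 : (0 : ℝ) ≤ b := by linarith
  have hM0 : (0 : ℝ) ≤ M := by linarith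
  calc 2 * (12 * dd V L) ^ (K * (K + 1)) * (Fintype.card V : ℝ) * b ^ K
      ≤ M ^ (K + 1) * b ^ K := mul_le_mul_of_nonneg_right h (pow_nonneg hb0 K)
    _ ≤ M ^ (K + 1) * b ^ (K + 1) := by
        refine mul_le_mul_of_nonneg_left ?_ (pow_nonneg hM0 _)
        exact pow_le_pow_right₀ hb (Nat.le_succ K)
    _ = (M * b) ^ (K + 1) := by rw [mul_pow]
    _ ≤ (x : ℝ) ^ (K + 1) := pow_le_pow_left₀ (mul_nonneg hM0 hb0) hx _

end P368M
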