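import Vale.Agent.P368M.Supp

/-! Modules NEAR and STEP: the spreading bound for one more layer.

`sgn_expand`: `∏_{S ∈ 𝒩} (1 - 2 pr S)`, pointwise (diagonal): `Finset.prod_add`/`prod_one_sub`...
`spread_step`: `U' = U * sgn 𝒮 * tens W`, `w₁ = tens W * w * star (tens W)`, then
`U' w U'* = (U sgn 𝒩 U*) (U w₁ U*) (U sgn 𝒩 U*)` with `𝒩.card ≤ T.card` (`SuppIn.sgn_conj`),
`compose_cut` twice with `Z = m + |T| + B`, `b = 3 (|T| + B)`, `m₁ = ⌈Λ (m+b)⌉`,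
`m₂ = ⌈L (m₁ + |T| + b)⌉`, `x ≥ 20 Λ² L Z ≥ Λ (m₂ + b)`; total
`(2 * 3^|T| + 1) exp (-b) ≤ exp (-B)`. -/

namespace P368M

open scoped Matrix.Norms.L2Operator

variable {V : Type} [Fintype V] [DecidableEq V]

theorem sgn_expand (𝒩 : Finset (Finset V)) :
    sgn 𝒩 = ∑ 𝒦 ∈ 𝒩.powerset, ((-2 : ℂ) ^ 𝒦.card) • pr (𝒦.biUnion id) := by
  have e : ∀ 𝒦 : Finset (Finset V), ((-2 : ℂ) ^ 𝒦.card) • pr (𝒦.biUnion id) =
      (Matrix.diagonal fun x : V → Bool =>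
        ∏ S ∈ 𝒦, (if ∀ i ∈ S, x i = true then (-2 : ℂ) else 0)) := by
    intro 𝒦
    unfold pr
    rw [← Matrix.diagonal_smul]
    congr 1
    funext x
    simp only [Pi.smul_apply, smul_eq_mul, Finset.mem_biUnion, id]
    by_cases h : ∀ S ∈ 𝒦, ∀ i ∈ S, x i = true
    · rw [if_pos (by rintro i ⟨S, hS, hi⟩; exact h S hS i hi), mul_one]
      rw [Finset.prod_congr rfl (fun S hS => if_pos (h S hS)), Finset.prod_const]
    · rw [if_neg (fun hc => h (fun S hS i hi => hc i ⟨S, hS, hi⟩)), mul_zero]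
      push Not at h
      obtain ⟨S, hS, i, hi, hx⟩ := h
      symm
      apply Finset.prod_eq_zero hS
      rw [if_neg]
      intro hc
      exact hx (hc i hi)
  simp only [e]
  unfold sgn
  ext x y
  rw [Matrix.sum_apply]
  by_cases hxy : x = y
  · subst hxy
    simp only [Matrix.diagonal_apply_eq]
    rw [← Finset.prod_one_add]
    refine Finset.prod_congr rfl fun S _ => ?_
    split_ifs <;> norm_num
  · simp [Matrix.diagonal_apply_ne _ hxy]

theorem norm_sgn_cut {t : ℕ} {Λ : ℝ} (hT : TailM V t Λ) {U : Op V} (hU : Circ t U)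
    (𝒩 : Finset (Finset V)) (S : Finset V) (m x : ℕ) (b : ℝ) (hb : 1 ≤ b)
    (hx : Λ * (m + b) ≤ x) :
    ‖ge S x * (U * sgn 𝒩 * star U) * le S m‖ ≤ 3 ^ 𝒩.card * Real.exp (-b) := by
  have e : ge S x * (U * sgn 𝒩 * star U) * le S m =
      ∑ 𝒦 ∈ 𝒩.powerset, ((-2 : ℂ) ^ 𝒦.card) •
        (ge S x * (U * pr (𝒦.biUnion id) * star U) * le S m) := by
    rw [sgn_expand, Finset.mul_sum, Finset.sum_mul, Finset.mul_sum, Finset.sum_mul]
    refine Finset.sum_congr rfl fun 𝒦 _ => ?_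
    simp only [Matrix.mul_smul, Matrix.smul_mul]
  rw [e]
  refine (norm_sum_le _ _).trans ?_
  have h3 : (3 : ℝ) ^ 𝒩.card = ∑ 𝒦 ∈ 𝒩.powerset, (2 : ℝ) ^ 𝒦.card := by
    have := Finset.sum_pow_mul_eq_add_pow (2 : ℝ) 1 𝒩
    simp only [one_pow, mul_one] at this
    rw [this]
    norm_num
  rw [h3, Finset.sum_mul]
  refine Finset.sum_le_sum fun 𝒦 _ => ?_
  rw [norm_smul, norm_pow, norm_neg, Complex.norm_ofNat]
  exact mul_le_mul_of_nonneg_left (hT U hU S _ m x b hb hx) (by positivity)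

end P368M
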