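import Vale.Agent.P368M.Defs

/-! Module NORM: elementary facts on the diagonal operators and the norm.
Proofs: `Matrix.l2_opNorm_diagonal`, `Matrix.diagonal_mul_diagonal`, `CStarRing`. -/

namespace P368M

open scoped Matrix.Norms.L2Operator

variable {V : Type} [Fintype V] [DecidableEq V]

theorem norm_diag_le (f : (V → Bool) → ℂ) {c : ℝ} (hc : 0 ≤ c) (h : ∀ x, ‖f x‖ ≤ c) :
    ‖(Matrix.diagonal f : Op V)‖ ≤ c := by
  rw [Matrix.l2_opNorm_diagonal]
  exact (pi_norm_le_iff_of_nonneg hc).2 h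

theorem norm_ge_le (S : Finset V) (k : ℕ) : ‖ge S k‖ ≤ 1 := by
  unfold ge
  refine norm_diag_le _ zero_le_one (fun x => ?_)
  split_ifs <;> simp

theorem norm_le_le (S : Finset V) (k : ℕ) : ‖le S k‖ ≤ 1 := by
  unfold le
  refine norm_diag_le _ zero_le_one (fun x => ?_)
  split_ifs <;> simp

theorem norm_pr_le (S : Finset V) : ‖pr S‖ ≤ 1 := by
  unfold pr
  refine norm_diag_le _ zero_le_one (fun x => ?_)
  split_ifs <;> simp

theorem norm_qf_le (S : Finset V) : ‖qf S‖ ≤ 1 := by
  unfold qf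
  refine norm_diag_le _ zero_le_one (fun x => ?_)
  split_ifs <;> simp

theorem norm_sgn_le (𝒮 : Finset (Finset V)) : ‖sgn 𝒮‖ ≤ 1 := by
  unfold sgn
  refine norm_diag_le _ zero_le_one (fun x => ?_)
  rw [norm_prod]
  refine le_of_eq (Finset.prod_eq_one (fun S _ => ?_))
  split_ifs <;> simp

theorem star_diag_aux (f : (V → Bool) → ℂ) (h : ∀ x, star (f x) = f x) :
    star (Matrix.diagonal f : Op V) = Matrix.diagonal f := by
  rw [Matrix.star_eq_conjTranspose, Matrix.diagonal_conjTranspose]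
  congr 1
  funext x
  exact h x

theorem star_ge (S : Finset V) (k : ℕ) : star (ge S k) = ge S k := by
  unfold ge
  refine star_diag_aux _ (fun x => ?_)
  split_ifs <;> simp

theorem star_le (S : Finset V) (k : ℕ) : star (le S k) = le S k := by
  unfold le
  refine star_diag_aux _ (fun x => ?_)
  split_ifs <;> simp

theorem star_pr (S : Finset V) : star (pr S) = pr S := by
  unfold pr
  refine star_diag_aux _ (fun x => ?_)
  split_ifs <;> simp

theorem star_qf (S : Finset V) : star (qf S) = qf S := by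
  unfold qf
  refine star_diag_aux _ (fun x => ?_)
  split_ifs <;> simp

theorem star_sgn (𝒮 : Finset (Finset V)) : star (sgn 𝒮) = sgn 𝒮 := by
  unfold sgn
  refine star_diag_aux _ (fun x => ?_)
  rw [star_prod]
  refine Finset.prod_congr rfl (fun S _ => ?_)
  split_ifs <;> simp

theorem pr_mul_pr (S : Finset V) : pr S * pr S = pr S := by
  unfold pr
  rw [Matrix.diagonal_mul_diagonal]
  congr 1
  funext x
  split_ifs <;> simp

theorem le_zero (S : Finset V) : le S 0 = pr S := by
  unfold le pr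
  congr 1
  funext x
  have : cnt S x ≤ 0 ↔ ∀ i ∈ S, x i = true := by
    unfold cnt
    rw [Nat.le_zero, Finset.card_eq_zero, Finset.filter_eq_empty_iff]
    constructor
    · intro h i hi
      have := h hi
      simpa using this
    · intro h i hi
      have := h i hi
      simp [this]
  simp only [this]

theorem le_add_ge (S : Finset V) (m : ℕ) : le S m + ge S (m + 1) = 1 := by
  unfold le ge
  rw [Matrix.diagonal_add, ← Matrix.diagonal_one]
  congr 1
  funext x
  by_cases h : cnt S x ≤ m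
  · have h' : ¬ (m + 1 ≤ cnt S x) := by omega
    simp [h, h']
  · have h' : m + 1 ≤ cnt S x := by omega
    simp [h, h']

theorem cnt_le_card (S : Finset V) (x : V → Bool) : cnt S x ≤ Fintype.card V := by
  unfold cnt
  exact (Finset.card_le_card (Finset.filter_subset _ _)).trans (Finset.card_le_univ _)

theorem ge_eq_zero (S : Finset V) (k : ℕ) (h : Fintype.card V < k) : ge S k = 0 := by
  unfold ge
  rw [← Matrix.diagonal_zero]
  congr 1
  funext x
  have := cnt_le_card S x
  have h' : ¬ (k ≤ cnt S x) := by omega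
  simp [h']

theorem sgn_mul_self (𝒮 : Finset (Finset V)) : sgn 𝒮 * sgn 𝒮 = 1 := by
  unfold sgn
  rw [Matrix.diagonal_mul_diagonal, ← Matrix.diagonal_one]
  congr 1
  funext x
  rw [← Finset.prod_mul_distrib]
  refine Finset.prod_eq_one (fun S _ => ?_)
  split_ifs <;> simp

theorem sgn_union (𝒮 𝒯 : Finset (Finset V)) (h : Disjoint 𝒮 𝒯) :
    sgn (𝒮 ∪ 𝒯) = sgn 𝒮 * sgn 𝒯 := by
  unfold sgn
  rw [Matrix.diagonal_mul_diagonal]
  congr 1
  funext x
  exact Finset.prod_union h

/-- `‖X‖² = ‖X X*‖` -/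
theorem norm_sq_eq (X : Op V) : ‖X‖ ^ 2 = ‖X * star X‖ := by
  rw [CStarRing.norm_self_mul_star, sq]

theorem norm_unitary_le (U : Op V) (h : star U * U = 1) : ‖U‖ ≤ 1 := by
  have h1 : ‖U‖ * ‖U‖ = ‖star U * U‖ := (CStarRing.norm_star_mul_self).symm
  rw [h] at h1
  have h2 : ‖(1 : Op V)‖ ≤ 1 := by
    rw [← Matrix.diagonal_one]
    refine norm_diag_le _ zero_le_one (fun x => ?_)
    simp
  nlinarith [norm_nonneg U]

/-- a cutoff on the left is monotone -/
theorem ge_left_le (S : Finset V) (x : ℕ) (X : Op V) : ‖ge S x * X‖ ≤ ‖X‖ := by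
  calc ‖ge S x * X‖ ≤ ‖ge S x‖ * ‖X‖ := norm_mul_le _ _
    _ ≤ 1 * ‖X‖ := by gcongr; exact norm_ge_le S x
    _ = ‖X‖ := one_mul _

/-- inserting the cutoff `m₁` between `A` and `B` (insert `1 = le S m₁ + ge S (m₁+1)`) -/
theorem compose_cut (S : Finset V) (x m₁ m : ℕ) (A B : Op V) (hA : ‖A‖ ≤ 1) (hB : ‖B‖ ≤ 1) :
    ‖ge S x * (A * B) * le S m‖ ≤
      ‖ge S x * A * le S m₁‖ + ‖ge S (m₁ + 1) * B * le S m‖ := by
  have e : ge S x * (A * B) * le S m =
      (ge S x * A * le S m₁) * (B * le S m) + (ge S x * A) * (ge S (m₁ + 1) * B * le S m) := by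
    have h1 := le_add_ge S m₁
    calc ge S x * (A * B) * le S m = ge S x * A * 1 * (B * le S m) := by
          simp only [mul_one, mul_assoc]
      _ = ge S x * A * (le S m₁ + ge S (m₁ + 1)) * (B * le S m) := by rw [h1]
      _ = _ := by
          simp only [mul_add, add_mul, mul_assoc]
  rw [e]
  refine (norm_add_le _ _).trans (add_le_add ?_ ?_)
  · refine (norm_mul_le _ _).trans ?_
    have h2 : ‖B * le S m‖ ≤ 1 := by
      refine (norm_mul_le _ _).trans ?_
      calc ‖B‖ * ‖le S m‖ ≤ 1 * 1 := by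
            gcongr
            exact norm_le_le S m
        _ = 1 := one_mul 1
    calc ‖ge S x * A * le S m₁‖ * ‖B * le S m‖ ≤ ‖ge S x * A * le S m₁‖ * 1 := by gcongr
      _ = _ := mul_one _
  · refine (norm_mul_le _ _).trans ?_
    have h2 : ‖ge S x * A‖ ≤ 1 := (ge_left_le S x A).trans hA
    calc ‖ge S x * A‖ * ‖ge S (m₁ + 1) * B * le S m‖
        ≤ 1 * ‖ge S (m₁ + 1) * B * le S m‖ := by gcongr
      _ = _ := one_mul _

end P368M
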