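import Vale.Agent.P368M.Cheb

open Polynomial

namespace P368.Moore

theorem one_le_log_two_mul_add_two {N : ℕ} (hN : 1 ≤ N) : 1 ≤ Real.log (2 * N + 2) := by
  have hN1 : (1 : ℝ) ≤ N := by exact_mod_cast hN
  rw [Real.le_log_iff_exp_le (by linarith)]
  have := Real.exp_one_lt_d9
  linarith

theorem tail_term (K : ℕ) {u : ℝ} (hu : 1 ≤ u) :
    (8 * u) ^ K * Real.exp (-(6 * K * u)) ≤ Real.exp (-K) := by
  have h1 : 8 * u ≤ Real.exp (5 * u) := by
    have e1 : Real.exp (5 * u) = Real.exp (4 * u) * Real.exp u := by rw [← Real.exp_add]; ring_nf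
    have e2 : 4 * u + 1 ≤ Real.exp (4 * u) := Real.add_one_le_exp _
    have e3 : u + 1 ≤ Real.exp u := Real.add_one_le_exp _
    have e4 : (4 * u + 1) * (u + 1) ≤ Real.exp (4 * u) * Real.exp u := by
      apply mul_le_mul e2 e3 (by linarith) (Real.exp_pos _).le
    nlinarith
  calc (8 * u) ^ K * Real.exp (-(6 * K * u))
      ≤ (Real.exp (5 * u)) ^ K * Real.exp (-(6 * K * u)) := by
        gcongr
    _ = Real.exp (-(K * u)) := by
        rw [← Real.exp_nat_mul, ← Real.exp_add]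
        congr 1
        ring
    _ ≤ Real.exp (-K) := by
        apply Real.exp_le_exp.2
        have : (0 : ℝ) ≤ K := Nat.cast_nonneg _
        nlinarith

theorem tail_sum (N K : ℕ) (R c : ℝ) (q : ℕ → ℝ) (hN : 1 ≤ N) (hR0 : 0 < R) (hc : 0 ≤ c)
    (hK : Real.log (2 * N + 2) ≤ K)
    (hq2 : ∀ m : ℕ, m ≤ N → R < m → |q m| ≤ c * (8 * m / R) ^ K) :
    ∑ m ∈ (Finset.range (N + 1)).filter (fun m : ℕ => R < m),
        |q m| * Real.exp (-(6 * K * (m / R))) ≤ c := by
  classical
  have hN1 : (1 : ℝ) ≤ N := by exact_mod_cast hN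
  set lam := Real.log (2 * N + 2) with hlam
  have hterm : ∀ m ∈ (Finset.range (N + 1)).filter (fun m : ℕ => R < m),
      |q m| * Real.exp (-(6 * K * (m / R))) ≤ c * Real.exp (-lam) := by
    intro m hm
    rw [Finset.mem_filter, Finset.mem_range] at hm
    have hu : 1 ≤ (m : ℝ) / R := by
      rw [le_div_iff₀ hR0]
      linarith [hm.2]
    have h1 := hq2 m (by omega) hm.2
    have h2 := tail_term K hu
    have h3 : Real.exp (-(K : ℝ)) ≤ Real.exp (-lam) := Real.exp_le_exp.2 (by linarith)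
    calc |q m| * Real.exp (-(6 * K * (m / R)))
        ≤ c * (8 * m / R) ^ K * Real.exp (-(6 * K * (m / R))) := by gcongr
      _ = c * ((8 * (m / R)) ^ K * Real.exp (-(6 * K * (m / R)))) := by
          rw [mul_div_assoc, mul_assoc]
      _ ≤ c * Real.exp (-lam) := by
          gcongr
          exact h2.trans h3
  refine (Finset.sum_le_sum hterm).trans ?_
  rw [Finset.sum_const, nsmul_eq_mul]
  have hcard : (((Finset.range (N + 1)).filter (fun m : ℕ => R < m)).card : ℝ) ≤ 2 * N + 2 := by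
    have h1 : ((Finset.range (N + 1)).filter (fun m : ℕ => R < m)).card ≤ N + 1 := by
      refine (Finset.card_filter_le _ _).trans ?_
      rw [Finset.card_range]
    have h2 : (((Finset.range (N + 1)).filter (fun m : ℕ => R < m)).card : ℝ) ≤ N + 1 := by
      exact_mod_cast h1
    linarith
  have hexp : Real.exp (-lam) = (2 * N + 2 : ℝ)⁻¹ := by
    rw [Real.exp_neg, hlam, Real.exp_log (by linarith)]
  have hne : (2 * N + 2 : ℝ) ≠ 0 := by positivity
  calc _ ≤ (2 * N + 2 : ℝ) * (c * Real.exp (-lam)) := by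
        apply mul_le_mul_of_nonneg_right hcard
        exact mul_nonneg hc (Real.exp_pos _).le
    _ = c := by
        rw [hexp]
        field_simp

/-- All the numerical data of one bootstrap step (Step A). -/
theorem stepA_package (N i : ℕ) (L A b y : ℝ) (hN : 1 ≤ N) (hL : 1 ≤ L) (hA : 1 ≤ A)
    (hb : 1 ≤ b) (hy0 : 0 ≤ y) (hyN : y ≤ N)
    (hmain : (12 * (208 * L * Real.log (2 * N + 2) ^ 2) ^ 2) ^ (i + 1) * A * N * b ^ (i + 1) ≤
      y ^ (i + 2)) :
    ∃ (R : ℝ) (rho : ℕ) (q : ℝ[X]) (β : ℕ → ℝ), 2 ≤ R ∧ rho ≤ N ∧ q.natDegree ≤ rho ∧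
      q.eval 0 = 1 ∧ (∀ j ≤ rho, |q.eval (j : ℝ)| ≤ 1) ∧
      L * (rho + (Real.log (2 * N + 2) * rho + 2 * b + 2)) ≤ y ∧
      (∀ m : ℕ, 1 ≤ m → m ≤ N → (m : ℝ) ≤ R → |q.eval (m : ℝ)| ≤ Real.exp (-2 * b - 2)) ∧
      (∀ m : ℕ, m ≤ N → R < m → 1 ≤ β m ∧ A * N * β m ^ i ≤ (m : ℝ) ^ (i + 1)) ∧
      ∑ m ∈ (Finset.range (N + 1)).filter (fun m : ℕ => R < m),
        |q.eval (m : ℝ)| * Real.exp (-β m) ≤ Real.exp (-2 * b - 2) := by
  classical
  have hlam1 := one_le_log_two_mul_add_two hN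
  set lam := Real.log (2 * N + 2) with hlam
  have hN1 : (1 : ℝ) ≤ N := by exact_mod_cast hN
  set E := 208 * L * lam ^ 2 with hE
  have hE1 : 208 ≤ E := by
    have : 1 ≤ L * lam ^ 2 := by nlinarith [one_le_pow₀ hlam1 (n := 2)]
    rw [hE]; nlinarith
  have hEL : 208 * (L * lam) ≤ E := by
    rw [hE]
    have : L * lam * 1 ≤ L * lam * lam := by gcongr
    nlinarith
  have hE0 : 0 < E := by linarith
  set D := E ^ 2 with hD
  have hD0 : 0 < D := by positivity
  have hDE : 208 * E ≤ D := by rw [hD]; nlinarith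
  have hb0 : 0 < b := by linarith
  -- y is large
  have hy1 : 12 * D * b ≤ y := by
    by_contra hlt
    rw [not_le] at hlt
    have h1 : y ^ (i + 1) < (12 * D * b) ^ (i + 1) := pow_lt_pow_left₀ hlt hy0 (by omega)
    have h2 : y ^ (i + 2) ≤ y ^ (i + 1) * N := by
      rw [pow_succ y (i + 1)]
      gcongr
    have h3 : (12 * D * b) ^ (i + 1) * N ≤ (12 * D) ^ (i + 1) * A * N * b ^ (i + 1) := by
      rw [mul_pow]
      calc (12 * D) ^ (i + 1) * b ^ (i + 1) * N = (12 * D) ^ (i + 1) * 1 * N * b ^ (i + 1) := by ring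
        _ ≤ (12 * D) ^ (i + 1) * A * N * b ^ (i + 1) := by gcongr
    have h4 : y ^ (i + 1) * N < (12 * D * b) ^ (i + 1) * N := by
      apply mul_lt_mul_of_pos_right h1
      linarith
    linarith
  have hy2 : 0 < y := by
    have : 0 < 12 * D * b := by positivity
    linarith
  have hDb : 0 < D * b := by positivity
  set R := y ^ 2 / (D * b) with hR
  have hR0 : 0 < R := by positivity
  have hRy : 12 * y ≤ R := by
    rw [hR, le_div_iff₀ hDb]
    nlinarith
  have hyb : b * 2496 * (L * lam) ≤ y := by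
    have h1 : 208 * (L * lam) * 1 ≤ D := by nlinarith
    have h2 : 12 * D * b ≥ 12 * (208 * (L * lam)) * b := by
      have : 0 ≤ 12 * b := by linarith
      nlinarith
    nlinarith
  have hLl : 1 ≤ L * lam := by nlinarith
  have hyb2 : 2496 * b ≤ y := by
    have : b * 2496 * 1 ≤ b * 2496 * (L * lam) := by gcongr
    linarith
  set s : ℕ := ⌈b⌉₊ with hs
  have hbs : b ≤ s := Nat.le_ceil b
  have hsb1 : (s : ℝ) ≤ b + 1 := (Nat.ceil_lt_add_one hb0.le).le
  have hsb : (s : ℝ) ≤ 2 * b := by linarith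
  have hR2 : 2 ≤ R := by nlinarith
  obtain ⟨K, q, hdeg, hKl, hKu, hq0, hq1, hq2⟩ :=
    exists_poly N s b R hN hb hbs hsb (by linarith) hR2
  rw [← hlam] at hKl hKu
  have hK1 : (1 : ℝ) ≤ K := hlam1.trans hKl
  have hsq : √(R * b) = y / E := by
    have : R * b = (y / E) ^ 2 := by
      rw [hR, hD]
      field_simp
    rw [this, Real.sqrt_sq (by positivity)]
  have hKy : 8 * (L * lam) * K ≤ y := by
    rw [hsq] at hKu
    have h1 : 26 * lam * (y / E) * (8 * (L * lam)) = y := by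
      rw [hE]
      field_simp
      ring
    calc 8 * (L * lam) * K ≤ 8 * (L * lam) * (26 * lam * (y / E)) := by gcongr
      _ = 26 * lam * (y / E) * (8 * (L * lam)) := by ring
      _ = y := h1
  have hKy2 : 8 * (K : ℝ) ≤ y := by
    have : 8 * 1 * (K : ℝ) ≤ 8 * (L * lam) * K := by gcongr
    linarith
  have hrho : ((K + s : ℕ) : ℝ) ≤ y := by
    push_cast
    linarith
  have hrhoN : K + s ≤ N := by
    have : ((K + s : ℕ) : ℝ) ≤ N := hrho.trans hyN
    exact_mod_cast this
  refine ⟨R, K + s, q, fun m => 6 * K * (m / R), hR2, hrhoN, hdeg, hq0, ?_, ?_, hq1, ?_, ?_⟩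
  · intro j hj
    rcases Nat.eq_zero_or_pos j with rfl | hj0
    · simp [hq0]
    · have hjr : (j : ℝ) ≤ ((K + s : ℕ) : ℝ) := by exact_mod_cast hj
      refine (hq1 j hj0 (by omega) (by linarith)).trans ?_
      rw [Real.exp_le_one_iff]
      linarith
  · push_cast
    have h1 : (s : ℝ) + lam * s + 2 * b + 2 ≤ 8 * lam * b := by
      have h2 : lam * s ≤ lam * (2 * b) := by gcongr
      have h3 : 1 * b ≤ lam * b := by gcongr
      linarith
    have h4 : (K : ℝ) + lam * K ≤ 2 * lam * K := by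
      have : 1 * (K : ℝ) ≤ lam * K := by gcongr
      linarith
    calc L * (K + s + (lam * (K + s) + 2 * b + 2))
        = L * ((K + lam * K) + (s + lam * s + 2 * b + 2)) := by ring
      _ ≤ L * (2 * lam * K + 8 * lam * b) := by gcongr
      _ = 8 * (L * lam) * K / 4 + b * 2496 * (L * lam) / 312 := by ring
      _ ≤ y / 4 + y / 312 := by gcongr
      _ ≤ y := by linarith
  · intro m hmN hmR
    have hm0 : (0 : ℝ) < m := hR0.trans hmR
    have hu : 1 ≤ (m : ℝ) / R := by
      rw [le_div_iff₀ hR0]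
      linarith
    refine ⟨by nlinarith, ?_⟩
    have h1 : 6 * (K : ℝ) * (m / R) ≤ m * (D * b / y) := by
      have h2 : 6 * (K : ℝ) ≤ y := by linarith
      calc 6 * (K : ℝ) * (m / R) ≤ y * (m / R) := by gcongr
        _ = m * (D * b / y) := by
            rw [hR]
            field_simp
    calc A * N * (6 * (K : ℝ) * (m / R)) ^ i ≤ A * N * (m * (D * b / y)) ^ i := by gcongr
      _ = (m : ℝ) ^ i * (A * N * (D * b / y) ^ i) := by rw [mul_pow]; ring
      _ ≤ (m : ℝ) ^ i * m := by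
          gcongr
          refine le_trans ?_ hmR.le
          rw [hR, div_pow, ← mul_div_assoc, div_le_div_iff₀ (by positivity) hDb]
          calc A * N * (D * b) ^ i * (D * b) = 1 ^ (i + 1) * A * N * (D * b) ^ (i + 1) := by
                rw [one_pow]; ring
            _ ≤ 12 ^ (i + 1) * A * N * (D * b) ^ (i + 1) := by gcongr; norm_num
            _ = (12 * D) ^ (i + 1) * A * N * b ^ (i + 1) := by rw [mul_pow, mul_pow]; ring
            _ ≤ y ^ (i + 2) := hmain
            _ = y ^ 2 * y ^ i := by ring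
      _ = (m : ℝ) ^ (i + 1) := by ring
  · exact tail_sum N K R (Real.exp (-2 * b - 2)) (fun m => q.eval (m : ℝ)) hN hR0
      (Real.exp_pos _).le hKl hq2

end P368.Moore
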