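import Vale.Agent.P368M.Conj

/-! Explicit form of the iteration: the spreading constant at depth `t` is at most
`exp (C_t λ^(1 - 2^(-t-1)))`, `λ = log (2N+2)`. -/

namespace P368M

open scoped Matrix.Norms.L2Operator
open P368

/-- exponent at depth `t` -/
noncomputable def qe (t : ℕ) : ℝ := 1 - (1 / 2 : ℝ) ^ (t + 1)

theorem qe_half (t : ℕ) : 1 / 2 ≤ qe t := by
  unfold qe
  have : (1 / 2 : ℝ) ^ (t + 1) ≤ (1 / 2 : ℝ) ^ 1 :=
    pow_le_pow_of_le_one (by norm_num) (by norm_num) (by omega)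
  rw [pow_one] at this
  linarith

theorem qe_lt_one (t : ℕ) : qe t < 1 := by
  unfold qe
  have : (0 : ℝ) < (1 / 2 : ℝ) ^ (t + 1) := by positivity
  linarith

theorem qe_succ (t : ℕ) : qe (t + 1) = (1 + qe t) / 2 := by
  unfold qe
  rw [pow_succ (1 / 2 : ℝ) (t + 1)]
  ring

theorem qe_mono {s t : ℕ} (h : s ≤ t) : qe s ≤ qe t := by
  unfold qe
  have : (1 / 2 : ℝ) ^ (t + 1) ≤ (1 / 2 : ℝ) ^ (s + 1) :=
    pow_le_pow_of_le_one (by norm_num) (by norm_num) (by omega)
  linarith

/-- `log x ≤ 2 x^a` for `x ≥ 1`, `a ≥ 1/2` -/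
theorem log_le_two_rpow {x a : ℝ} (hx : 1 ≤ x) (ha : 1 / 2 ≤ a) : Real.log x ≤ 2 * x ^ a := by
  have h1 : Real.log x ≤ 2 * x ^ (1 / 2 : ℝ) := by
    have h2 : Real.log (x ^ (1 / 2 : ℝ)) ≤ x ^ (1 / 2 : ℝ) :=
      (Real.log_le_sub_one_of_pos (by positivity)).trans (by linarith)
    rw [Real.log_rpow (by linarith)] at h2
    linarith
  have h3 : x ^ (1 / 2 : ℝ) ≤ x ^ a := Real.rpow_le_rpow_of_exponent_le hx ha
  linarith

theorem quasi_step {V : Type} [Fintype V] [DecidableEq V] [Nonempty V] (t : ℕ) {C : ℝ}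
    (hC : 1 ≤ C) (hS : Spread V t (Real.exp (C * lam V ^ qe t))) :
    Spread V (t + 1) (Real.exp ((101 + 9 * C) * lam V ^ qe (t + 1))) := by
  have hlam : 1 ≤ lam V := lam_pos
  set x := lam V with hx
  have hx0 : 0 < x := by linarith
  set a := qe t with ha
  set a' := qe (t + 1) with ha'
  have haa : a' = (1 + a) / 2 := qe_succ t
  have ha1 : a < 1 := qe_lt_one t
  have hah : 1 / 2 ≤ a := qe_half t
  have hle : a ≤ a' := by rw [haa]; linarith
  have hxa : 1 ≤ x ^ a := Real.one_le_rpow hlam (by linarith)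
  have hxa' : x ^ a ≤ x ^ a' := Real.rpow_le_rpow_of_exponent_le hlam hle
  have hxa1 : 1 ≤ x ^ a' := hxa.trans hxa'
  have hlog : Real.log x ≤ 2 * x ^ a := log_le_two_rpow hlam hah
  set L := Real.exp (C * x ^ a) with hL
  have hL1 : 1 ≤ L := Real.one_le_exp (by positivity)
  set E := 22 + 2 * C with hE
  -- bound on `12 * dd`
  have hdd : 12 * dd V L ≤ Real.exp (E * x ^ a) := by
    have h1 : 12 * dd V L = 519168 * (L ^ 2 * x ^ 4) := by
      unfold dd
      rw [← hx]
      ring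
    have h2 : (519168 : ℝ) ≤ Real.exp 14 := by
      have h3 : (2.7 : ℝ) ≤ Real.exp 1 := by
        have := Real.exp_one_gt_d9
        linarith
      have h4 : (2.7 : ℝ) ^ 14 ≤ Real.exp 1 ^ 14 := pow_le_pow_left₀ (by norm_num) h3 14
      have h5 : Real.exp 14 = Real.exp 1 ^ 14 := by
        rw [← Real.exp_nat_mul]
        norm_num
      rw [h5]
      refine le_trans ?_ h4
      norm_num
    have h6 : L ^ 2 = Real.exp (2 * (C * x ^ a)) := by
      rw [hL, ← Real.exp_nat_mul]
      norm_num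
    have h7 : x ^ 4 = Real.exp (4 * Real.log x) := by
      rw [← Real.exp_log hx0]
      rw [← Real.exp_nat_mul]
      norm_num
    rw [h1, h6, h7, ← Real.exp_add]
    calc 519168 * Real.exp (2 * (C * x ^ a) + 4 * Real.log x)
        ≤ Real.exp 14 * Real.exp (2 * (C * x ^ a) + 4 * Real.log x) :=
          mul_le_mul_of_nonneg_right h2 (Real.exp_pos _).le
      _ = Real.exp (14 + (2 * (C * x ^ a) + 4 * Real.log x)) := (Real.exp_add _ _).symm
      _ ≤ Real.exp (E * x ^ a) := by
          apply Real.exp_le_exp.2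
          rw [hE]
          nlinarith
  set K := ⌈x ^ (1 - a')⌉₊ with hK
  have hKlow : x ^ (1 - a') ≤ K := Nat.le_ceil _
  have hone : 1 ≤ x ^ (1 - a') := Real.one_le_rpow hlam (by rw [haa]; linarith)
  have hKup : (K : ℝ) ≤ 2 * x ^ (1 - a') := by
    have := (Nat.ceil_lt_add_one (show 0 ≤ x ^ (1 - a') by positivity)).le
    rw [← hK] at this
    linarith
  have hprod : x ^ (1 - a') * x ^ a = x ^ a' := by
    rw [← Real.rpow_add hx0]
    congr 1
    rw [haa]
    ring
  have hprod2 : x ^ (1 - a') * x ^ a' = x := by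
    rw [← Real.rpow_add hx0]
    conv_rhs => rw [← Real.rpow_one x]
    congr 1
    ring
  have hE0 : 0 ≤ E := by rw [hE]; linarith
  set M := Real.exp ((2 * E + 2) * x ^ a') with hM
  have hM1 : 1 ≤ M := Real.one_le_exp (by positivity)
  have hN : 2 * (Fintype.card V : ℝ) ≤ Real.exp x := by
    rw [hx]
    unfold lam
    rw [Real.exp_log (by positivity)]
    linarith
  have hcond : 2 * (12 * dd V L) ^ (K * (K + 1)) * Fintype.card V ≤ M ^ (K + 1) := by
    have hdd0 : 0 ≤ 12 * dd V L := by unfold dd; positivity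
    have h1 : (12 * dd V L) ^ (K * (K + 1)) ≤ Real.exp (((K * (K + 1) : ℕ) : ℝ) * (E * x ^ a)) := by
      rw [Real.exp_nat_mul]
      exact pow_le_pow_left₀ hdd0 hdd _
    calc 2 * (12 * dd V L) ^ (K * (K + 1)) * Fintype.card V
        = (12 * dd V L) ^ (K * (K + 1)) * (2 * Fintype.card V) := by ring
      _ ≤ Real.exp (((K * (K + 1) : ℕ) : ℝ) * (E * x ^ a)) * Real.exp x :=
          mul_le_mul h1 hN (by positivity) (Real.exp_pos _).le
      _ = Real.exp (((K * (K + 1) : ℕ) : ℝ) * (E * x ^ a) + x) := (Real.exp_add _ _).symm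
      _ ≤ Real.exp (((K + 1 : ℕ) : ℝ) * ((2 * E + 2) * x ^ a')) := by
          apply Real.exp_le_exp.2
          push_cast
          have h2 : (K : ℝ) * (E * x ^ a) ≤ 2 * E * x ^ a' := by
            calc (K : ℝ) * (E * x ^ a) ≤ (2 * x ^ (1 - a')) * (E * x ^ a) :=
                  mul_le_mul_of_nonneg_right hKup (by positivity)
              _ = 2 * E * (x ^ (1 - a') * x ^ a) := by ring
              _ = 2 * E * x ^ a' := by rw [hprod]
          have h3 : x ≤ ((K : ℝ) + 1) * (2 * x ^ a') := by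
            calc x = x ^ (1 - a') * x ^ a' := hprod2.symm
              _ ≤ (K : ℝ) * x ^ a' := mul_le_mul_of_nonneg_right hKlow (by positivity)
              _ ≤ ((K : ℝ) + 1) * (2 * x ^ a') := by
                  have : (0 : ℝ) ≤ K := Nat.cast_nonneg _
                  nlinarith
          have hK1 : (0 : ℝ) ≤ (K : ℝ) + 1 := by positivity
          have h4 := mul_le_mul_of_nonneg_left h2 hK1
          nlinarith
      _ = M ^ (K + 1) := by rw [Real.exp_nat_mul]
  have hnext := spread_next hL1 hS K M hM1 hcond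
  refine hnext.mono ?_
  have hx2 : x ^ 2 = Real.exp (2 * Real.log x) := by
    conv_lhs => rw [← Real.exp_log hx0]
    rw [← Real.exp_nat_mul]
    norm_num
  have hM2 : M ^ 2 = Real.exp (2 * ((2 * E + 2) * x ^ a')) := by
    rw [hM, ← Real.exp_nat_mul]
    norm_num
  have h80 : (80 : ℝ) ≤ Real.exp 5 := by
    have h3 : (2.7 : ℝ) ≤ Real.exp 1 := by
      have := Real.exp_one_gt_d9
      linarith
    have h4 : (2.7 : ℝ) ^ 5 ≤ Real.exp 1 ^ 5 := pow_le_pow_left₀ (by norm_num) h3 5
    have h5 : Real.exp 5 = Real.exp 1 ^ 5 := by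
      rw [← Real.exp_nat_mul]
      norm_num
    rw [h5]
    refine le_trans ?_ h4
    norm_num
  calc 20 * (2 * M * x) ^ 2 * L = 80 * (M ^ 2 * x ^ 2 * L) := by ring
    _ ≤ Real.exp 5 * (M ^ 2 * x ^ 2 * L) := mul_le_mul_of_nonneg_right h80 (by positivity)
    _ = Real.exp (5 + (2 * ((2 * E + 2) * x ^ a') + 2 * Real.log x + C * x ^ a)) := by
        rw [hM2, hx2, hL, ← Real.exp_add, ← Real.exp_add, ← Real.exp_add]
    _ ≤ Real.exp ((101 + 9 * C) * x ^ a') := by
        apply Real.exp_le_exp.2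
        rw [hE]
        have h9 : 0 ≤ C - 1 := by linarith
        nlinarith [mul_le_mul_of_nonneg_left hxa' (show (0 : ℝ) ≤ C by linarith)]

theorem spread_quasi (t : ℕ) : ∃ C : ℝ, 1 ≤ C ∧
    ∀ (V : Type) [Fintype V] [DecidableEq V] [Nonempty V],
      Spread V t (Real.exp (C * lam V ^ qe t)) := by
  induction t with
  | zero =>
    refine ⟨1, le_refl _, ?_⟩
    intro V _ _ _
    have hlam : 1 ≤ lam V := lam_pos
    exact spread_zero.mono (Real.one_le_exp (by positivity))
  | succ t ih =>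
    obtain ⟨C, hC, h⟩ := ih
    refine ⟨101 + 9 * C, by linarith, ?_⟩
    intro V _ _ _
    exact quasi_step t hC (h V)

end P368M
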