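import Vale.Agent.P368M.Quasi

/-! Explicit size lower bound for parity. -/

namespace P368M

open scoped Matrix.Norms.L2Operator
open P368

theorem spread_quasi_upto (d : ℕ) : ∃ C : ℝ, 1 ≤ C ∧ ∀ t ≤ d,
    ∀ (V : Type) [Fintype V] [DecidableEq V] [Nonempty V],
      Spread V t (Real.exp (C * lam V ^ qe d)) := by
  have h := fun t => spread_quasi t
  choose C hC1 hC using h
  refine ⟨∑ t ∈ Finset.range (d + 1), C t, ?_, ?_⟩
  · calc (1 : ℝ) ≤ C 0 := hC1 0
      _ ≤ ∑ t ∈ Finset.range (d + 1), C t :=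
        Finset.single_le_sum (f := C) (fun t _ => zero_le_one.trans (hC1 t))
          (Finset.mem_range.2 (by omega))
  · intro t ht V _ _ _
    refine (hC t V).mono (Real.exp_le_exp.2 ?_)
    have hlam : 1 ≤ lam V := lam_pos
    have h1 : lam V ^ qe t ≤ lam V ^ qe d := Real.rpow_le_rpow_of_exponent_le hlam (qe_mono ht)
    have h2 : C t ≤ ∑ t ∈ Finset.range (d + 1), C t :=
      Finset.single_le_sum (f := C) (fun t _ => zero_le_one.trans (hC1 t))
        (Finset.mem_range.2 (by omega))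
    have h3 : 0 ≤ C t := zero_le_one.trans (hC1 t)
    exact mul_le_mul h2 h1 (by positivity) (h3.trans h2)

/-- explicit correlation bound -/
theorem main_quasi (d : ℕ) : ∃ C : ℝ, 0 < C ∧
    ∀ (n : ℕ) (A : Type) [Fintype A] [DecidableEq A] (α : Ket A), nsq α = 1 →
    ∀ (L : List (Layer (Fin n ⊕ A))) (F : Fin n ⊕ A → Matrix Bool Bool ℂ) (o : Fin n ⊕ A),
      L.length ≤ d → (∀ l ∈ L, l.Valid) → (∀ v, F v ∈ Matrix.unitaryGroup Bool ℂ) →
      |corr L F o α| ≤ Real.exp (2 - n / Real.exp (C *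
        Real.log (2 * ((n : ℝ) + Fintype.card A) + 2) ^ (1 - (1 / 2 : ℝ) ^ (d + 1)))) := by
  obtain ⟨C, hC1, hC⟩ := spread_quasi_upto d
  refine ⟨C, by linarith, ?_⟩
  intro n A _ _ α hα L F o hL hval hF
  have hne : Nonempty (Fin n ⊕ A) := ⟨o⟩
  obtain ⟨M, hM, hrun⟩ := circuit_matrix L hval F hF
  have hS := hC L.length hL (Fin n ⊕ A)
  have hcard : lam (Fin n ⊕ A) = Real.log (2 * ((n : ℝ) + Fintype.card A) + 2) := by
    unfold lam
    rw [Fintype.card_sum, Fintype.card_fin]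
    push_cast
    rfl
  rw [hcard] at hS
  have hqe : qe d = 1 - (1 / 2 : ℝ) ^ (d + 1) := rfl
  rw [hqe] at hS
  set Λ := Real.exp (C *
        Real.log (2 * ((n : ℝ) + Fintype.card A) + 2) ^ (1 - (1 / 2 : ℝ) ^ (d + 1))) with hΛ
  have hΛ0 : 0 < Λ := Real.exp_pos _
  rcases lt_or_ge ((n : ℝ) / Λ - 1) 1 with hB | hB
  · refine (corr_le_one L hval F hF o α hα).trans ?_
    rw [← Real.exp_zero]
    exact Real.exp_le_exp.2 (by linarith)
  · have hn : Λ * (1 + ((n : ℝ) / Λ - 1)) ≤ n := by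
      have : Λ * (1 + ((n : ℝ) / Λ - 1)) = n := by
        field_simp
        ring
      exact this.le
    have h1 := corr_le hS hM o α hα ((n : ℝ) / Λ - 1) hB hn
    have h2 := corr_eq L F o α M hrun
    have h3 : |corr L F o α| = ‖((corr L F o α : ℝ) : ℂ)‖ := by
      rw [Complex.norm_real, Real.norm_eq_abs]
    rw [h3, h2, norm_div, norm_pow, Complex.norm_ofNat, div_le_iff₀ (by positivity)]
    refine h1.trans ?_
    rw [mul_comm]
    refine mul_le_mul_of_nonneg_right (Real.exp_le_exp.2 (by linarith)) (by positivity)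

/-- size lower bound: worst-case advantage `ε` at entangling depth `d` needs
`N ≥ exp ((log n / C)^(1 + 1/(2^(d+1)-1)))` qubits -/
theorem size_lower (d : ℕ) (ε : ℝ) (hε : 0 < ε) : ∃ C : ℝ, 0 < C ∧ ∃ n₀ : ℕ, ∀ n : ℕ, n₀ ≤ n →
    ∀ (A : Type) [Fintype A] [DecidableEq A] (α : Ket A), nsq α = 1 →
    ∀ (L : List (Layer (Fin n ⊕ A))) (F : Fin n ⊕ A → Matrix Bool Bool ℂ) (o : Fin n ⊕ A),
      L.length ≤ d → (∀ l ∈ L, l.Valid) → (∀ v, F v ∈ Matrix.unitaryGroup Bool ℂ) →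
      ε ≤ |corr L F o α| →
      Real.exp ((Real.log n / C) ^ (1 + 1 / ((2 : ℝ) ^ (d + 1) - 1))) ≤
        (n : ℝ) + Fintype.card A := by
  obtain ⟨C, hC, h⟩ := main_quasi d
  -- `n ≤ E exp (C λ^a)` with `E = 2 + log (1/ε)`
  set E : ℝ := 2 - Real.log (min ε 1) with hE
  have hm : 0 < min ε 1 := lt_min hε one_pos
  have hE1 : 2 ≤ E := by
    have : Real.log (min ε 1) ≤ 0 := Real.log_nonpos hm.le (min_le_right _ _)
    linarith
  refine ⟨6 * C, by positivity, ⌈E ^ 2⌉₊ + 2, ?_⟩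
  intro n hn A _ _ α hα L F o hL hval hF hcorr
  have hb := h n A α hα L F o hL hval hF
  have hnE : E ^ 2 ≤ n := by
    have h1 : E ^ 2 ≤ (⌈E ^ 2⌉₊ : ℝ) := Nat.le_ceil _
    have h2 : ((⌈E ^ 2⌉₊ + 2 : ℕ) : ℝ) ≤ n := by exact_mod_cast hn
    push_cast at h2
    linarith
  have hn2 : (2 : ℝ) ≤ n := by
    have h2 : ((⌈E ^ 2⌉₊ + 2 : ℕ) : ℝ) ≤ n := by exact_mod_cast hn
    push_cast at h2
    have h3 : (0 : ℝ) ≤ (⌈E ^ 2⌉₊ : ℝ) := Nat.cast_nonneg _
    linarith
  have hn0 : (0 : ℝ) < n := by linarith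
  set N : ℝ := (n : ℝ) + Fintype.card A with hN
  have hA0 : (0 : ℝ) ≤ Fintype.card A := Nat.cast_nonneg _
  have hN2 : 2 ≤ N := by linarith
  set a : ℝ := 1 - (1 / 2 : ℝ) ^ (d + 1) with ha
  have hpow : (0 : ℝ) < (1 / 2 : ℝ) ^ (d + 1) := by positivity
  have hpow2 : (1 / 2 : ℝ) ^ (d + 1) ≤ 1 / 2 := by
    have : (1 / 2 : ℝ) ^ (d + 1) ≤ (1 / 2 : ℝ) ^ 1 :=
      pow_le_pow_of_le_one (by norm_num) (by norm_num) (by omega)
    rwa [pow_one] at this
  have ha0 : 0 < a := by rw [ha]; linarith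
  have hp : 1 + 1 / ((2 : ℝ) ^ (d + 1) - 1) = 1 / a := by
    rw [ha]
    have h2 : (2 : ℝ) ^ (d + 1) ≠ 0 := by positivity
    have h3 : (1 : ℝ) < (2 : ℝ) ^ (d + 1) := one_lt_pow₀ (by norm_num) (by omega)
    have h4 : (2 : ℝ) ^ (d + 1) - 1 ≠ 0 := by linarith
    rw [one_div_pow]
    field_simp
    ring
  set x : ℝ := Real.log (2 * N + 2) with hx
  have hx0 : 0 ≤ x := Real.log_nonneg (by linarith)
  set T : ℝ := Real.exp (C * x ^ a) with hT
  have hT0 : 0 < T := Real.exp_pos _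
  -- step 1
  have h1 : Real.log (min ε 1) ≤ 2 - n / T := by
    have h2 : min ε 1 ≤ Real.exp (2 - n / T) := (min_le_left _ _).trans (hcorr.trans hb)
    have h3 := Real.log_le_log hm h2
    rwa [Real.log_exp] at h3
  have h4 : (n : ℝ) ≤ E * T := by
    have h5 : (n : ℝ) / T ≤ E := by rw [hE]; linarith
    rwa [div_le_iff₀ hT0] at h5
  -- step 2: `log n ≤ log E + C x^a`, `log E ≤ (log n)/2`
  have hE0 : 0 < E := by linarith
  have h6 : Real.log n ≤ Real.log E + C * x ^ a := by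
    have h7 := Real.log_le_log hn0 h4
    rwa [Real.log_mul hE0.ne' hT0.ne', hT, Real.log_exp] at h7
  have h8 : 2 * Real.log E ≤ Real.log n := by
    have h9 := Real.log_le_log (by positivity) hnE
    rw [Real.log_pow] at h9
    push_cast at h9
    exact h9
  have hlogn : 0 ≤ Real.log n := Real.log_nonneg (by linarith)
  have h10 : Real.log n / (2 * C) ≤ x ^ a := by
    rw [div_le_iff₀ (by positivity)]
    linarith
  -- step 3: `x ≤ 3 log N`
  have hlogN : 0 ≤ Real.log N := Real.log_nonneg (by linarith)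
  have h11 : x ≤ 3 * Real.log N := by
    have h12 : 2 * N + 2 ≤ N ^ 3 := by nlinarith [mul_pos (show (0:ℝ) < N by linarith) (show (0:ℝ) < N by linarith)]
    have h13 := Real.log_le_log (by linarith) h12
    rw [Real.log_pow] at h13
    push_cast at h13
    exact h13
  -- conclusion
  have h14 : Real.log n / (6 * C) ≤ Real.log N ^ a := by
    have h15 : x ^ a ≤ (3 * Real.log N) ^ a := Real.rpow_le_rpow hx0 h11 ha0.le
    have h16 : (3 * Real.log N) ^ a ≤ 3 * Real.log N ^ a := by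
      rw [Real.mul_rpow (by norm_num) hlogN]
      have h17 : (3 : ℝ) ^ a ≤ 3 := by
        have : (3 : ℝ) ^ a ≤ (3 : ℝ) ^ (1 : ℝ) :=
          Real.rpow_le_rpow_of_exponent_le (by norm_num) (by rw [ha]; linarith)
        rwa [Real.rpow_one] at this
      exact mul_le_mul_of_nonneg_right h17 (by positivity)
    have h18 : Real.log n / (6 * C) = Real.log n / (2 * C) / 3 := by
      field_simp
      ring
    rw [h18, div_le_iff₀ (by norm_num)]
    linarith
  rw [hp]
  have h19 : (Real.log n / (6 * C)) ^ (1 / a) ≤ Real.log N := by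
    have h20 : (Real.log n / (6 * C)) ^ (1 / a) ≤ (Real.log N ^ a) ^ (1 / a) :=
      Real.rpow_le_rpow (by positivity) h14 (by positivity)
    rwa [← Real.rpow_mul hlogN, mul_one_div_cancel ha0.ne', Real.rpow_one] at h20
  calc Real.exp ((Real.log n / (6 * C)) ^ (1 / a)) ≤ Real.exp (Real.log N) :=
        Real.exp_le_exp.2 h19
    _ = N := Real.exp_log (by linarith)

end P368M
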