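import Vale.Agent.P368M.Norm

/-! Module TENS: product operators.  `tens_mul` is `Finset.prod_univ_sum` +
`Fintype.piFinset_univ` (or `Finset.sum_prod_piFinset`), everything else follows. -/

namespace P368M

open scoped Matrix.Norms.L2Operator

variable {V : Type} [Fintype V] [DecidableEq V]

theorem tens_mul (W W' : V → Matrix Bool Bool ℂ) :
    tens W * tens W' = tens (fun i => W i * W' i) := by
  ext x y
  simp only [tens, Matrix.mul_apply]
  rw [Finset.prod_univ_sum, Fintype.piFinset_univ]
  refine Finset.sum_congr rfl (fun z _ => ?_)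
  rw [Finset.prod_mul_distrib]

theorem tens_one : tens (fun _ : V => (1 : Matrix Bool Bool ℂ)) = 1 := by
  ext x y
  simp only [tens, Matrix.one_apply]
  by_cases h : x = y
  · subst h
    simp
  · rw [if_neg h]
    obtain ⟨i, hi⟩ := Function.ne_iff.1 h
    exact Finset.prod_eq_zero (Finset.mem_univ i) (if_neg hi)

theorem star_tens (W : V → Matrix Bool Bool ℂ) : star (tens W) = tens (fun i => star (W i)) := by
  ext x y
  rw [Matrix.star_eq_conjTranspose, Matrix.conjTranspose_apply]
  simp only [tens, star_prod]
  rfl

theorem Uni.mul {W W' : V → Matrix Bool Bool ℂ} (h : Uni W) (h' : Uni W') :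
    Uni (fun i => W i * W' i) := fun i => mul_mem (h i) (h' i)

theorem Uni.adj {W : V → Matrix Bool Bool ℂ} (h : Uni W) : Uni (fun i => star (W i)) :=
  fun i => Unitary.star_mem (h i)

theorem Uni.one : Uni (fun _ : V => (1 : Matrix Bool Bool ℂ)) := fun _ => one_mem _

theorem star_tens_mul_self {W : V → Matrix Bool Bool ℂ} (h : Uni W) :
    star (tens W) * tens W = 1 := by
  rw [star_tens, tens_mul, ← tens_one]
  congr 1
  funext i
  exact (Matrix.mem_unitaryGroup_iff'.1 (h i))

theorem tens_mul_star_self {W : V → Matrix Bool Bool ℂ} (h : Uni W) :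
    tens W * star (tens W) = 1 := by
  rw [star_tens, tens_mul, ← tens_one]
  congr 1
  funext i
  exact (Matrix.mem_unitaryGroup_iff.1 (h i))

/-- the projection on `true` of one qubit -/
def eT : Matrix Bool Bool ℂ := fun a b => if a = true ∧ b = true then 1 else 0

/-- the projection on `false` of one qubit -/
def eF : Matrix Bool Bool ℂ := fun a b => if a = false ∧ b = false then 1 else 0

theorem diag_eq_tens_aux (S : Finset V) (c : Bool) (e : Matrix Bool Bool ℂ)
    (he : ∀ a b, e a b = if a = c ∧ b = c then 1 else 0) :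
    (Matrix.diagonal fun x : V → Bool => if ∀ i ∈ S, x i = c then (1 : ℂ) else 0) =
      tens (fun i => if i ∈ S then e else 1) := by
  ext x y
  simp only [tens, Matrix.diagonal_apply]
  by_cases h : x = y
  · subst h
    rw [if_pos rfl]
    by_cases h2 : ∀ i ∈ S, x i = c
    · rw [if_pos h2]
      refine (Finset.prod_eq_one (fun i _ => ?_)).symm
      by_cases hi : i ∈ S
      · simp [hi, he, h2 i hi]
      · simp [hi]
    · rw [if_neg h2]
      push Not at h2
      obtain ⟨i, hi, hxi⟩ := h2
      refine (Finset.prod_eq_zero (Finset.mem_univ i) ?_).symm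
      simp [hi, he, hxi]
  · rw [if_neg h]
    obtain ⟨i, hi⟩ := Function.ne_iff.1 h
    refine (Finset.prod_eq_zero (Finset.mem_univ i) ?_).symm
    by_cases hS : i ∈ S
    · have : ¬ (x i = c ∧ y i = c) := fun hh => hi (hh.1.trans hh.2.symm)
      simp only [hS, if_true, he, if_neg this]
    · simp [hS, Matrix.one_apply, hi]

theorem pr_eq_tens (S : Finset V) : pr S = tens (fun i => if i ∈ S then eT else 1) :=
  diag_eq_tens_aux S true eT (fun _ _ => rfl)

theorem qf_eq_tens (S : Finset V) : qf S = tens (fun i => if i ∈ S then eF else 1) :=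
  diag_eq_tens_aux S false eF (fun _ _ => rfl)

end P368M
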